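import Mathlib

/-!
# The cone lemma

Linear second order equation `y'' = T^2 y` on `[0,∞)` (real variable, complex values), where `T` varies
slowly (`‖T'‖ < ε Re T ‖T‖`).  If `y` is recessive at infinity (`‖y' + T y‖ < ε ‖y' - T y‖` eventually),
then the same inequality holds on the whole half line.
-/

noncomputable section

open Filter Topology Set Complex

namespace Vale.Agent.P139.H355

/-- Derivative of the squared norm of a complex function of a real variable. -/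
lemma hasDerivAt_normSq {h : ℝ → ℂ} {h' : ℂ} {t : ℝ} (hh : HasDerivAt h h' t) :
    HasDerivAt (fun s => ‖h s‖ ^ 2) (2 * (starRingEnd ℂ (h t) * h').re) t := by
  have e : (fun s => ‖h s‖ ^ 2) = fun s => (h s).re ^ 2 + (h s).im ^ 2 := by
    funext s
    rw [← Complex.normSq_eq_norm_sq, Complex.normSq_apply]; ring
  rw [e]
  have hre : HasDerivAt (fun s => (h s).re) h'.re t :=
    Complex.reCLM.hasFDerivAt.comp_hasDerivAt t hh
  have him : HasDerivAt (fun s => (h s).im) h'.im t :=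
    Complex.imCLM.hasFDerivAt.comp_hasDerivAt t hh
  have := (hre.fun_pow 2).fun_add (him.fun_pow 2)
  refine this.congr_deriv ?_
  simp only [Complex.mul_re, Complex.conj_re, Complex.conj_im]
  push_cast
  ring

/-- The algebraic inequality behind the cone lemma. -/
lemma cone_algebra {ε R q x g : ℝ} (hε : 0 ≤ ε) (hε1 : ε ≤ 1) (hR : 0 ≤ R)
    (hqR : q ≤ ε * R) (hx : 0 ≤ x) (hg : 0 ≤ g) (hneg : x ≤ ε * g) :
    2 * R * (x ^ 2 - ε ^ 2 * g ^ 2) ≤
      2 * R * x ^ 2 + 2 * ε ^ 2 * R * g ^ 2 - q * ((x + g) * (x + ε ^ 2 * g)) := by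
  -- suffices q (x+g)(x+ε² g) ≤ 4 ε² R g²
  have hxg : x ≤ g := hneg.trans (by nlinarith)
  have h1 : (x + g) * (x + ε ^ 2 * g) ≤ (2 * g) * (2 * (ε * g)) := by
    have h2 : ε ^ 2 * g ≤ ε * g := by nlinarith [mul_nonneg hε hg]
    apply mul_le_mul
    · linarith
    · linarith
    · positivity
    · positivity
  have h3 : q * ((x + g) * (x + ε ^ 2 * g)) ≤ (ε * R) * ((2 * g) * (2 * (ε * g))) := by
    apply mul_le_mul hqR h1
    · positivity
    · positivity
  nlinarith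

/-- **Cone lemma.** -/
theorem cone_lemma {y y' T T' : ℝ → ℂ} {ε : ℝ} (hε : 0 < ε) (hε1 : ε ≤ 1)
    (hy : ∀ t, 0 ≤ t → HasDerivAt y (y' t) t)
    (hy' : ∀ t, 0 ≤ t → HasDerivAt y' (T t ^ 2 * y t) t)
    (hT : ∀ t, 0 ≤ t → HasDerivAt T (T' t) t)
    (hre : ∀ t, 0 ≤ t → 0 < (T t).re)
    (hslow : ∀ t, 0 ≤ t → ‖T' t‖ ≤ ε * (T t).re * ‖T t‖)
    (hinf : ∀ᶠ t in atTop, ‖y' t + T t * y t‖ < ε * ‖y' t - T t * y t‖) :
    ∀ t, 0 ≤ t → ‖y' t + T t * y t‖ < ε * ‖y' t - T t * y t‖ := by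
  set h : ℝ → ℂ := fun t => y' t + T t * y t with hh
  set g : ℝ → ℂ := fun t => y' t - T t * y t with hg
  set N : ℝ → ℝ := fun t => ‖h t‖ ^ 2 - ε ^ 2 * ‖g t‖ ^ 2 with hN
  have hdh : ∀ t, 0 ≤ t → HasDerivAt h (T t * h t + T' t * y t) t := by
    intro t ht
    have := (hy' t ht).fun_add ((hT t ht).fun_mul (hy t ht))
    refine this.congr_deriv ?_
    simp only [hh]; ring
  have hdg : ∀ t, 0 ≤ t → HasDerivAt g (-(T t * g t) - T' t * y t) t := by
    intro t ht
    have := (hy' t ht).fun_sub ((hT t ht).fun_mul (hy t ht))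
    refine this.congr_deriv ?_
    simp only [hg]; ring
  set N' : ℝ → ℝ := fun t =>
    2 * (starRingEnd ℂ (h t) * (T t * h t + T' t * y t)).re -
      ε ^ 2 * (2 * (starRingEnd ℂ (g t) * (-(T t * g t) - T' t * y t)).re) with hN'
  have hdN : ∀ t, 0 ≤ t → HasDerivAt N (N' t) t := by
    intro t ht
    exact (hasDerivAt_normSq (hdh t ht)).sub ((hasDerivAt_normSq (hdg t ht)).const_mul _)
  -- key differential inequality
  have hkey : ∀ t, 0 ≤ t → N t ≤ 0 → 2 * (T t).re * N t ≤ N' t := by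
    intro t ht hNt
    have hTn : 0 < ‖T t‖ := by
      rw [norm_pos_iff]; intro h0; have := hre t ht; rw [h0] at this; simp at this
    have hTne : T t ≠ 0 := norm_pos_iff.mp hTn
    have hyy : y t = (h t - g t) / (2 * T t) := by
      simp only [hh, hg]; field_simp; ring
    have hynorm : ‖y t‖ ≤ (‖h t‖ + ‖g t‖) / (2 * ‖T t‖) := by
      rw [hyy, norm_div, norm_mul, Complex.norm_ofNat]
      gcongr
      exact norm_sub_le _ _
    have hle : ‖h t‖ ≤ ε * ‖g t‖ := by
      have : ‖h t‖ ^ 2 ≤ (ε * ‖g t‖) ^ 2 := by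
        rw [mul_pow]; simp only [hN] at hNt; linarith
      exact le_of_sq_le_sq this (by positivity)
    set q : ℝ := ‖T' t‖ / ‖T t‖ with hq
    have hq0 : 0 ≤ q := by positivity
    have hqR : q ≤ ε * (T t).re := by
      rw [hq, div_le_iff₀ hTn]; exact hslow t ht
    have hTy : ‖T' t * y t‖ ≤ q * (‖h t‖ + ‖g t‖) / 2 := by
      rw [norm_mul]
      calc ‖T' t‖ * ‖y t‖ ≤ ‖T' t‖ * ((‖h t‖ + ‖g t‖) / (2 * ‖T t‖)) := by gcongr
        _ = q * (‖h t‖ + ‖g t‖) / 2 := by rw [hq]; field_simp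
    have e1 : (starRingEnd ℂ (h t) * (T t * h t + T' t * y t)).re =
        (T t).re * ‖h t‖ ^ 2 + (starRingEnd ℂ (h t) * (T' t * y t)).re := by
      rw [mul_add, Complex.add_re]
      congr 1
      have : starRingEnd ℂ (h t) * (T t * h t) = T t * ((‖h t‖ ^ 2 : ℝ) : ℂ) := by
        rw [show starRingEnd ℂ (h t) * (T t * h t) = T t * (h t * starRingEnd ℂ (h t)) by ring,
          Complex.mul_conj, Complex.normSq_eq_norm_sq]
      rw [this, Complex.re_mul_ofReal]
    have e2 : (starRingEnd ℂ (g t) * (-(T t * g t) - T' t * y t)).re =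
        -((T t).re * ‖g t‖ ^ 2) - (starRingEnd ℂ (g t) * (T' t * y t)).re := by
      have : starRingEnd ℂ (g t) * (-(T t * g t) - T' t * y t) =
          -(T t * ((‖g t‖ ^ 2 : ℝ) : ℂ)) - starRingEnd ℂ (g t) * (T' t * y t) := by
        have e3 : ((‖g t‖ ^ 2 : ℝ) : ℂ) = g t * starRingEnd ℂ (g t) := by
          rw [Complex.mul_conj, Complex.normSq_eq_norm_sq]
        rw [e3]; ring
      rw [this, Complex.sub_re, Complex.neg_re, Complex.re_mul_ofReal]
    have b1 : -(‖h t‖ * (q * (‖h t‖ + ‖g t‖) / 2)) ≤ (starRingEnd ℂ (h t) * (T' t * y t)).re := by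
      have := Complex.abs_re_le_norm (starRingEnd ℂ (h t) * (T' t * y t))
      rw [norm_mul, RCLike.norm_conj] at this
      have h2 : ‖h t‖ * ‖T' t * y t‖ ≤ ‖h t‖ * (q * (‖h t‖ + ‖g t‖) / 2) := by gcongr
      have := (abs_le.mp this).1
      linarith
    have b2 : -(‖g t‖ * (q * (‖h t‖ + ‖g t‖) / 2)) ≤ (starRingEnd ℂ (g t) * (T' t * y t)).re := by
      have := Complex.abs_re_le_norm (starRingEnd ℂ (g t) * (T' t * y t))
      rw [norm_mul, RCLike.norm_conj] at this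
      have h2 : ‖g t‖ * ‖T' t * y t‖ ≤ ‖g t‖ * (q * (‖h t‖ + ‖g t‖) / 2) := by gcongr
      have := (abs_le.mp this).1
      linarith
    have hal := cone_algebra (ε := ε) (R := (T t).re) (q := q) (x := ‖h t‖) (g := ‖g t‖)
      hε.le hε1 (hre t ht).le hqR (norm_nonneg _) (norm_nonneg _) hle
    have hb2 : ε ^ 2 * -(‖g t‖ * (q * (‖h t‖ + ‖g t‖) / 2)) ≤
        ε ^ 2 * (starRingEnd ℂ (g t) * (T' t * y t)).re :=
      mul_le_mul_of_nonneg_left b2 (by positivity)
    calc 2 * (T t).re * N t = 2 * (T t).re * (‖h t‖ ^ 2 - ε ^ 2 * ‖g t‖ ^ 2) := by rw [hN]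
      _ ≤ 2 * (T t).re * ‖h t‖ ^ 2 + 2 * ε ^ 2 * (T t).re * ‖g t‖ ^ 2 -
          q * ((‖h t‖ + ‖g t‖) * (‖h t‖ + ε ^ 2 * ‖g t‖)) := hal
      _ ≤ N' t := by
        simp only [hN', e1, e2]
        nlinarith
  -- main argument
  have hNneg : ∀ t, 0 ≤ t → N t < 0 := by
    by_contra hcon
    push Not at hcon
    obtain ⟨t0, ht0, hN0⟩ := hcon
    have hev : ∀ᶠ t in atTop, N t < 0 := by
      filter_upwards [hinf] with t ht
      have h1 : ‖h t‖ < ε * ‖g t‖ := ht
      have h2 : ‖h t‖ ^ 2 < (ε * ‖g t‖) ^ 2 := by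
        apply pow_lt_pow_left₀ h1 (norm_nonneg _) (by norm_num)
      simp only [hN]; rw [mul_pow] at h2; linarith
    obtain ⟨t1, ht1a, ht1b⟩ := (hev.and (eventually_ge_atTop t0)).exists
    -- last time with N ≥ 0
    have hcont : ContinuousOn N (Icc t0 t1) := fun t ht =>
      (hdN t (ht0.trans ht.1)).continuousAt.continuousWithinAt
    set S : Set ℝ := {t | t ∈ Icc t0 t1 ∧ 0 ≤ N t} with hS
    have hSc : IsClosed S := by
      have : S = Icc t0 t1 ∩ N ⁻¹' (Ici 0) := by ext t; simp [hS]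
      rw [this]
      exact hcont.preimage_isClosed_of_isClosed isClosed_Icc isClosed_Ici
    have hSne : S.Nonempty := ⟨t0, ⟨le_rfl, ht1b⟩, hN0⟩
    have hSb : BddAbove S := ⟨t1, fun t ht => ht.1.2⟩
    obtain ⟨⟨ht2a, ht2b⟩, hN2⟩ := hSc.csSup_mem hSne hSb
    set t2 := sSup S with ht2
    have ht2pos : 0 ≤ t2 := ht0.trans ht2a
    have hlt : t2 < t1 := by
      rcases ht2b.lt_or_eq with h | h
      · exact h
      · exfalso; rw [h] at hN2; linarith
    have hneg2 : ∀ t, t2 < t → t ≤ t1 → N t < 0 := by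
      intro t h1 h2
      by_contra hc
      push Not at hc
      have : t ∈ S := ⟨⟨ht2a.trans h1.le, h2⟩, hc⟩
      have := le_csSup hSb this
      linarith
    -- bound for Re T on the compact interval
    have hTc : ContinuousOn (fun t => (T t).re) (Icc t2 t1) := fun t ht =>
      (Complex.continuous_re.continuousAt.comp (hT t (ht2pos.trans ht.1)).continuousAt).continuousWithinAt
    obtain ⟨C, hC⟩ := (isCompact_Icc.image_of_continuousOn hTc).bddAbove
    have hC' : ∀ t ∈ Icc t2 t1, (T t).re ≤ C := fun t ht => hC ⟨t, ht, rfl⟩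
    set M : ℝ → ℝ := fun t => N t * Real.exp (-(2 * C * t)) with hM
    have hdM : ∀ t, 0 ≤ t → HasDerivAt M (N' t * Real.exp (-(2 * C * t)) +
        N t * (Real.exp (-(2 * C * t)) * (-(2 * C)))) t := by
      intro t ht
      have hexp : HasDerivAt (fun t : ℝ => Real.exp (-(2 * C * t)))
          (Real.exp (-(2 * C * t)) * (-(2 * C))) t := by
        have : HasDerivAt (fun t : ℝ => -(2 * C * t)) (-(2 * C)) t :=
          (((hasDerivAt_id t).const_mul (2 * C)).fun_neg).congr_deriv (by ring)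
        exact this.exp
      exact (hdN t ht).mul hexp
    have hmono : MonotoneOn M (Icc t2 t1) := by
      apply monotoneOn_of_deriv_nonneg (convex_Icc _ _)
      · exact fun t ht => (hdM t (ht2pos.trans ht.1)).continuousAt.continuousWithinAt
      · intro t ht
        rw [interior_Icc] at ht
        exact (hdM t (ht2pos.trans ht.1.le)).differentiableAt.differentiableWithinAt
      · intro t ht
        rw [interior_Icc] at ht
        have ht0' : 0 ≤ t := ht2pos.trans ht.1.le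
        rw [(hdM t ht0').deriv]
        have hn := hneg2 t ht.1 ht.2.le
        have hk := hkey t ht0' hn.le
        have hc := hC' t ⟨ht.1.le, ht.2.le⟩
        have : 0 ≤ N' t - 2 * C * N t := by nlinarith
        have := mul_nonneg this (Real.exp_pos (-(2 * C * t))).le
        linarith
    have h1 := hmono (left_mem_Icc.mpr hlt.le) (right_mem_Icc.mpr hlt.le) hlt.le
    have h2 : 0 ≤ M t2 := mul_nonneg hN2 (Real.exp_pos _).le
    have h3 : M t1 < 0 := mul_neg_of_neg_of_pos ht1a (Real.exp_pos _)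
    linarith
  intro t ht
  have h1 : N t < 0 := hNneg t ht
  have h2 : ‖h t‖ ^ 2 < (ε * ‖g t‖) ^ 2 := by rw [mul_pow]; simp only [hN] at h1; linarith
  exact lt_of_pow_lt_pow_left₀ 2 (by positivity) h2

/-- Consequence: `y ≠ 0` and `y'/y = -T (1 + small)`. -/
theorem cone_consequence {y y' T : ℂ} {ε : ℝ} (hε : 0 < ε) (hε1 : ε < 1)
    (h : ‖y' + T * y‖ < ε * ‖y' - T * y‖) :
    y ≠ 0 ∧ ‖y' / y + T‖ ≤ 2 * ε / (1 - ε) * ‖T‖ := by
  have hg : ‖y' - T * y‖ ≤ ‖y' + T * y‖ + 2 * (‖T‖ * ‖y‖) := by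
    have : y' - T * y = (y' + T * y) - 2 * (T * y) := by ring
    rw [this]
    refine (norm_sub_le _ _).trans ?_
    rw [norm_mul, norm_mul, Complex.norm_ofNat]
  have h1 : (1 - ε) * ‖y' - T * y‖ < 2 * (‖T‖ * ‖y‖) := by
    nlinarith [norm_nonneg (y' - T * y)]
  have hy : y ≠ 0 := by
    rintro rfl
    simp only [mul_zero, add_zero, sub_zero, norm_zero] at h h1
    nlinarith [norm_nonneg y']
  have hy0 : 0 < ‖y‖ := norm_pos_iff.mpr hy
  refine ⟨hy, ?_⟩
  have e : y' / y + T = (y' + T * y) / y := by field_simp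
  rw [e, norm_div, div_le_iff₀ hy0]
  have h2 : ‖y' - T * y‖ ≤ 2 * (‖T‖ * ‖y‖) / (1 - ε) := by
    rw [le_div_iff₀ (by linarith)]; linarith
  calc ‖y' + T * y‖ ≤ ε * ‖y' - T * y‖ := h.le
    _ ≤ ε * (2 * (‖T‖ * ‖y‖) / (1 - ε)) := by gcongr
    _ = 2 * ε / (1 - ε) * ‖T‖ * ‖y‖ := by ring

end Vale.Agent.P139.H355
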