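import Mathlib

/-!
# Geometry of `Θ(ζ) = 1/4 + σ/ζ - B/ζ²` on the ray `ζ = ρ + τ(1+i)`, `Im σ ≥ -θ₀`, `B ≥ 0`.
-/

noncomputable section

open Filter Topology Set Complex

namespace Vale.Agent.P139.H355

/-- `Θ`. -/
def Th (sg : ℂ) (B : ℝ) (ζ : ℂ) : ℂ := 1 / 4 + sg / ζ - (B : ℂ) / ζ ^ 2

/-- The ray. -/
def ray (ρ τ : ℝ) : ℂ := (ρ : ℂ) + (τ : ℂ) * (1 + I)

lemma ray_re (ρ τ : ℝ) : (ray ρ τ).re = ρ + τ := by simp [ray]
lemma ray_im (ρ τ : ℝ) : (ray ρ τ).im = τ := by simp [ray]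

lemma ray_normSq (ρ τ : ℝ) : ‖ray ρ τ‖ ^ 2 = (ρ + τ) ^ 2 + τ ^ 2 := by
  rw [← Complex.normSq_eq_norm_sq, Complex.normSq_apply, ray_re, ray_im]; ring

lemma ray_ne {ρ τ : ℝ} (hρ : 0 < ρ) (hτ : 0 ≤ τ) : ray ρ τ ≠ 0 := by
  intro h
  have := congrArg Complex.re h
  rw [ray_re] at this; simp at this; linarith

lemma ray_norm_ge (ρ τ : ℝ) : ρ + τ ≤ ‖ray ρ τ‖ := by
  have := Complex.re_le_norm (ray ρ τ)
  rwa [ray_re] at this

lemma ray_norm_pos {ρ τ : ℝ} (hρ : 0 < ρ) (hτ : 0 ≤ τ) : 0 < ‖ray ρ τ‖ :=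
  norm_pos_iff.mpr (ray_ne hρ hτ)

/-- `Im (ζ Θ)`. -/
lemma im_mul_Th {sg : ℂ} {B ρ τ : ℝ} (hρ : 0 < ρ) (hτ : 0 ≤ τ) :
    (ray ρ τ * Th sg B (ray ρ τ)).im = τ / 4 + sg.im + B * τ / ‖ray ρ τ‖ ^ 2 := by
  have hne := ray_ne hρ hτ
  have e : ray ρ τ * Th sg B (ray ρ τ) = ray ρ τ / 4 + sg - (B : ℂ) * (ray ρ τ)⁻¹ := by
    unfold Th; field_simp
  rw [e]
  have h4 : (ray ρ τ / 4).im = τ / 4 := by
    rw [show (4 : ℂ) = ((4 : ℝ) : ℂ) by norm_num, Complex.div_ofReal_im, ray_im]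
  simp only [Complex.sub_im, Complex.add_im, h4, Complex.im_ofReal_mul, Complex.inv_im, ray_im,
    Complex.normSq_eq_norm_sq]
  ring

/-- Lower bound away from the starting point of the ray. -/
lemma Th_far {sg : ℂ} {B ρ τ κ : ℝ} (hρ : 0 < ρ) (hτ : 0 ≤ τ) (hκ : 0 < κ) (hκ1 : κ ≤ 1)
    (hsg : 0 ≤ sg.im) (hB : 0 ≤ B) (hfar : κ * ‖ray ρ τ‖ ≤ τ) :
    κ / 3 * (1 / 4 + ‖sg‖ / ‖ray ρ τ‖ + B / ‖ray ρ τ‖ ^ 2) ≤ ‖Th sg B (ray ρ τ)‖ := by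
  have hn := ray_norm_pos hρ hτ
  set z := ray ρ τ with hz
  set n := ‖z‖ with hnn
  set Θ := Th sg B z with hΘ
  have h1 : τ / 4 + sg.im + B * τ / n ^ 2 ≤ n * ‖Θ‖ := by
    rw [← norm_mul, ← im_mul_Th hρ hτ]
    exact Complex.im_le_norm _
  have h2 : κ * (1 / 4 + B / n ^ 2) ≤ ‖Θ‖ := by
    have h3 : (κ * n) * (1 / 4 + B / n ^ 2) ≤ τ * (1 / 4 + B / n ^ 2) := by gcongr
    have h4 : τ * (1 / 4 + B / n ^ 2) ≤ n * ‖Θ‖ := by
      have : τ * (1 / 4 + B / n ^ 2) = τ / 4 + B * τ / n ^ 2 := by ring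
      linarith
    have h5 : n * (κ * (1 / 4 + B / n ^ 2)) ≤ n * ‖Θ‖ := by linarith
    exact le_of_mul_le_mul_left h5 hn
  have h6 : ‖sg‖ / n ≤ ‖Θ‖ + (1 / 4 + B / n ^ 2) := by
    have e : sg / z = Θ - 1 / 4 + (B : ℂ) / z ^ 2 := by simp only [hΘ, Th]; ring
    have : ‖sg / z‖ ≤ ‖Θ‖ + ‖(1 / 4 : ℂ)‖ + ‖(B : ℂ) / z ^ 2‖ := by
      rw [e]; exact (norm_add_le _ _).trans (add_le_add_left (norm_sub_le _ _) _)
    rw [norm_div, norm_div ((B : ℂ)), norm_pow, Complex.norm_real, Real.norm_of_nonneg hB] at this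
    have h14 : ‖(1 / 4 : ℂ)‖ = 1 / 4 := by norm_num
    rw [h14] at this
    linarith
  have h7 : 0 ≤ ‖Θ‖ := norm_nonneg _
  have h8 : κ * (‖sg‖ / n) ≤ κ * ‖Θ‖ + κ * (1 / 4 + B / n ^ 2) := by
    have := mul_le_mul_of_nonneg_left h6 hκ.le
    linarith
  have h9 : κ * ‖Θ‖ ≤ ‖Θ‖ := by nlinarith
  have : κ / 3 * (1 / 4 + ‖sg‖ / n + B / n ^ 2) =
      (κ * (1 / 4 + B / n ^ 2) + κ * (‖sg‖ / n)) / 3 := by ring
  rw [this]
  linarith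

/-- Auxiliary: if the real parts satisfy `Q ≤ P` then `|a+b|² ≥ |a|²/2` for `conj a * b = P + iQ`. -/
lemma normSq_add_ge {a b : ℂ} (h : (starRingEnd ℂ a * b).im ≤ (starRingEnd ℂ a * b).re) :
    ‖a‖ ^ 2 / 2 ≤ ‖a + b‖ ^ 2 := by
  set p := (starRingEnd ℂ a * b).re with hp
  set q := (starRingEnd ℂ a * b).im with hq
  have hpq : p ^ 2 + q ^ 2 = ‖a‖ ^ 2 * ‖b‖ ^ 2 := by
    have := Complex.normSq_eq_norm_sq (starRingEnd ℂ a * b)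
    rw [norm_mul, RCLike.norm_conj, mul_pow, Complex.normSq_apply] at this
    rw [← this]; ring
  have hexp : ‖a + b‖ ^ 2 = ‖a‖ ^ 2 + ‖b‖ ^ 2 + 2 * p := by
    rw [← Complex.normSq_eq_norm_sq, ← Complex.normSq_eq_norm_sq, ← Complex.normSq_eq_norm_sq,
      Complex.normSq_add]
    have : (a * starRingEnd ℂ b).re = p := by
      rw [hp]; simp only [Complex.mul_re, Complex.conj_re, Complex.conj_im]; ring
    rw [this]
  rw [hexp]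
  rcases le_or_gt 0 p with h0 | h0
  · nlinarith [sq_nonneg ‖a‖, sq_nonneg ‖b‖]
  · -- 2 p^2 ≤ p^2+q^2
    have h2 : 2 * p ^ 2 ≤ ‖a‖ ^ 2 * ‖b‖ ^ 2 := by rw [← hpq]; nlinarith
    -- want a²/2 + b² + 2p ≥ 0
    by_contra hcon
    push Not at hcon
    have h3 : ‖a‖ ^ 2 / 2 + ‖b‖ ^ 2 < -(2 * p) := by linarith
    have h4 : (‖a‖ ^ 2 / 2 + ‖b‖ ^ 2) ^ 2 < (-(2 * p)) ^ 2 := by
      apply pow_lt_pow_left₀ h3 (by positivity) (by norm_num)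
    nlinarith [sq_nonneg (‖a‖ ^ 2 / 2 - ‖b‖ ^ 2)]

/-- `|σ ζ - B|² ≥ |σ ρ - B|²/2` on the ray, if `Im σ ≥ 0`. -/
lemma near_aux {sg : ℂ} {B ρ τ : ℝ} (hτ : 0 ≤ τ) (hsg : 0 ≤ sg.im) (hB : 0 ≤ B) :
    ‖sg * ρ - B‖ ^ 2 / 2 ≤ ‖sg * ray ρ τ - B‖ ^ 2 := by
  have e : sg * ray ρ τ - B = (sg * ρ - B) + sg * τ * (1 + I) := by unfold ray; ring
  rw [e]
  apply normSq_add_ge
  have h1 : (starRingEnd ℂ (sg * ρ - B) * (sg * τ * (1 + I))).re -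
      (starRingEnd ℂ (sg * ρ - B) * (sg * τ * (1 + I))).im = 2 * (B * τ * sg.im) := by
    simp only [map_sub, map_mul, Complex.conj_ofReal, Complex.mul_re, Complex.sub_re,
      Complex.conj_re, Complex.conj_im, Complex.ofReal_re, Complex.ofReal_im, Complex.mul_im,
      Complex.sub_im, Complex.add_re, Complex.add_im, Complex.one_re, Complex.one_im,
      Complex.I_re, Complex.I_im]
    ring
  have h2 : 0 ≤ B * τ * sg.im := by positivity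
  linarith

/-- Lower bound near the starting point. -/
lemma Th_near {sg : ℂ} {B ρ τ ε : ℝ} (hρ : 0 < ρ) (hτ : 0 ≤ τ) (hτρ : τ ≤ ρ) (hε : 0 < ε)
    (hε1 : ε ≤ 1) (hsg : 0 ≤ sg.im) (hB : 0 ≤ B)
    (hnd : ε * (‖sg‖ * ρ + B) ≤ ‖sg * ρ - B‖)
    (hbig : 10 * ρ ^ 2 / ε ≤ ‖sg‖ * ρ + B) :
    ε / 10 * (1 / 4 + ‖sg‖ / ‖ray ρ τ‖ + B / ‖ray ρ τ‖ ^ 2) ≤ ‖Th sg B (ray ρ τ)‖ := by
  have hn := ray_norm_pos hρ hτ
  have hne := ray_ne hρ hτ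
  have hD := ray_normSq ρ τ
  have haux := near_aux (ρ := ρ) hτ hsg hB
  set z := ray ρ τ with hz
  set n := ‖z‖ with hnn
  set M := ‖sg‖ * ρ + B with hM
  have hM0 : 0 ≤ M := by positivity
  have hD5 : n ^ 2 ≤ 5 * ρ ^ 2 := by rw [hD]; nlinarith
  have h1 : (7 / 10) * (ε * M) ≤ ‖sg * z - B‖ := by
    have h2 : (ε * M) ^ 2 ≤ ‖sg * ρ - B‖ ^ 2 := pow_le_pow_left₀ (by positivity) hnd 2
    have h3 : ((7 / 10) * (ε * M)) ^ 2 ≤ ‖sg * z - B‖ ^ 2 := by nlinarith [sq_nonneg (ε * M)]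
    exact le_of_sq_le_sq h3 (norm_nonneg _)
  have h4 : ‖sg * z - B‖ ≤ n ^ 2 * ‖Th sg B z‖ + n ^ 2 / 4 := by
    have e : sg * z - B = z ^ 2 * Th sg B z - z ^ 2 / 4 := by unfold Th; field_simp; ring
    rw [e]
    refine (norm_sub_le _ _).trans ?_
    rw [norm_mul, norm_div, norm_pow, show ‖(4 : ℂ)‖ = 4 by norm_num]
  have h5 : 10 * ρ ^ 2 ≤ ε * M := by
    rw [div_le_iff₀ hε] at hbig; linarith
  -- n² |Θ| ≥ 0.7 ε M - 5ρ²/4 ≥ 0.57 ε M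
  have h6 : (57 / 100) * (ε * M) ≤ n ^ 2 * ‖Th sg B z‖ := by nlinarith
  have hn2 : 0 < n ^ 2 := by positivity
  -- upper bound of the right-hand side multiplied by n²
  have h7 : n ≤ (9 / 4) * ρ := by
    have : n ^ 2 ≤ ((9 / 4) * ρ) ^ 2 := by nlinarith
    exact le_of_sq_le_sq this (by positivity)
  have h8 : n ^ 2 * (ε / 10 * (1 / 4 + ‖sg‖ / n + B / n ^ 2)) ≤ n ^ 2 * ‖Th sg B z‖ := by
    have e : n ^ 2 * (ε / 10 * (1 / 4 + ‖sg‖ / n + B / n ^ 2)) =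
        ε / 10 * (n ^ 2 / 4 + ‖sg‖ * n + B) := by field_simp
    rw [e]
    have h9 : ‖sg‖ * n ≤ (9 / 4) * (‖sg‖ * ρ) := by
      have := mul_le_mul_of_nonneg_left h7 (norm_nonneg sg); linarith
    have h10 : n ^ 2 / 4 + ‖sg‖ * n + B ≤ 5 / 4 * ρ ^ 2 + (9 / 4) * M := by
      have : B ≤ (9 / 4) * B := by linarith
      simp only [hM]; linarith
    have h11 : ε / 10 * (n ^ 2 / 4 + ‖sg‖ * n + B) ≤ ε / 10 * (5 / 4 * ρ ^ 2 + (9 / 4) * M) := by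
      gcongr
    have h12 : ε * ρ ^ 2 ≤ ρ ^ 2 := by nlinarith [sq_nonneg ρ]
    nlinarith
  exact le_of_mul_le_mul_left h8 hn2

/-- Global lower bound for `Im σ ≥ 0`. -/
lemma Th_lower {sg : ℂ} {B ρ τ ε : ℝ} (hρ : 0 < ρ) (hτ : 0 ≤ τ) (hε : 0 < ε)
    (hε1 : ε ≤ 1) (hsg : 0 ≤ sg.im) (hB : 0 ≤ B)
    (hnd : ε * (‖sg‖ * ρ + B) ≤ ‖sg * ρ - B‖)
    (hbig : 10 * ρ ^ 2 / ε ≤ ‖sg‖ * ρ + B) :
    ε / 10 * (1 / 4 + ‖sg‖ / ‖ray ρ τ‖ + B / ‖ray ρ τ‖ ^ 2) ≤ ‖Th sg B (ray ρ τ)‖ := by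
  rcases le_total τ ρ with h | h
  · exact Th_near hρ hτ h hε hε1 hsg hB hnd hbig
  · have hfar : (2 / 5 : ℝ) * ‖ray ρ τ‖ ≤ τ := by
      have : ((2 / 5 : ℝ) * ‖ray ρ τ‖) ^ 2 ≤ τ ^ 2 := by
        rw [mul_pow, ray_normSq]; nlinarith
      exact le_of_sq_le_sq this hτ
    have h1 := Th_far (sg := sg) (B := B) hρ hτ (by norm_num) (by norm_num) hsg hB hfar
    refine le_trans ?_ h1
    have : 0 ≤ 1 / 4 + ‖sg‖ / ‖ray ρ τ‖ + B / ‖ray ρ τ‖ ^ 2 := by positivity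
    apply mul_le_mul_of_nonneg_right _ this
    linarith

/-- Sector condition for `Im σ ≥ 0`. -/
lemma Th_sector {sg : ℂ} {B ρ τ : ℝ} (hρ : 0 < ρ) (hτ : 0 ≤ τ) (hsg : 0 ≤ sg.im) (hB : 0 ≤ B) :
    0 ≤ (Th sg B (ray ρ τ)).im ∨ 0 ≤ (Th sg B (ray ρ τ)).re + (Th sg B (ray ρ τ)).im := by
  have hn := ray_norm_pos hρ hτ
  have hne := ray_ne hρ hτ
  have hD := ray_normSq ρ τ
  set D := ‖ray ρ τ‖ ^ 2 with hDD
  have hDpos : 0 < D := by positivity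
  have hinv : (ray ρ τ)⁻¹ = (((ρ + τ) / D : ℝ) : ℂ) + ((-τ / D : ℝ) : ℂ) * I := by
    apply Complex.ext
    · rw [Complex.inv_re, ray_re, Complex.normSq_eq_norm_sq, ← hDD]; simp
    · rw [Complex.inv_im, ray_im, Complex.normSq_eq_norm_sq, ← hDD]; simp
  have hTh : Th sg B (ray ρ τ) = 1 / 4 + sg * (ray ρ τ)⁻¹ - (B : ℂ) * ((ray ρ τ)⁻¹) ^ 2 := by
    unfold Th; field_simp
  have hre : (Th sg B (ray ρ τ)).re = 1 / 4 + (sg.re * (ρ + τ) + sg.im * τ) / D -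
      B * ((ρ + τ) ^ 2 - τ ^ 2) / D ^ 2 := by
    rw [hTh, hinv]
    have h4 : (1 / 4 : ℂ) = ((1 / 4 : ℝ) : ℂ) := by norm_num
    rw [h4]
    simp only [Complex.sub_re, Complex.add_re, Complex.mul_re, Complex.ofReal_re,
      Complex.ofReal_im, Complex.mul_im, Complex.add_im, Complex.I_re, Complex.I_im, pow_two]
    field_simp
    ring
  have him : (Th sg B (ray ρ τ)).im = (sg.im * (ρ + τ) - sg.re * τ) / D +
      2 * B * (ρ + τ) * τ / D ^ 2 := by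
    rw [hTh, hinv]
    have h4 : (1 / 4 : ℂ) = ((1 / 4 : ℝ) : ℂ) := by norm_num
    rw [h4]
    simp only [Complex.sub_im, Complex.add_re, Complex.mul_re, Complex.ofReal_re,
      Complex.ofReal_im, Complex.mul_im, Complex.add_im, Complex.I_re, Complex.I_im, pow_two]
    field_simp
    ring
  by_cases hIm : 0 ≤ (Th sg B (ray ρ τ)).im
  · exact Or.inl hIm
  right
  push Not at hIm
  set x := ρ + τ with hx
  set ω := sg.re with hω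
  set θ := sg.im with hθ
  have hxpos : 0 < x := by positivity
  have hxτ : τ ≤ x := by linarith
  -- 2 B x τ / D² < (ω τ - θ x)/D
  have h1 : 2 * B * x * τ < (ω * τ - θ * x) * D := by
    rw [him] at hIm
    have h2 : ((θ * x - ω * τ) / D + 2 * B * x * τ / D ^ 2) * D ^ 2 < 0 :=
      mul_neg_of_neg_of_pos hIm (by positivity)
    have h3 : ((θ * x - ω * τ) / D + 2 * B * x * τ / D ^ 2) * D ^ 2 =
        (θ * x - ω * τ) * D + 2 * B * x * τ := by field_simp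
    rw [h3] at h2
    linarith
  have hτ0 : 0 < τ := by
    rcases hτ.lt_or_eq with h | h
    · exact h
    · exfalso
      rw [← h] at h1
      have : 0 ≤ θ * x * D := by positivity
      nlinarith
  have hω0 : 0 < ω := by
    by_contra hc
    push Not at hc
    have h4 : 0 ≤ 2 * B * x * τ := by positivity
    have h5 : ω * τ ≤ 0 := mul_nonpos_of_nonpos_of_nonneg hc hτ
    have h6 : 0 ≤ θ * x := by positivity
    nlinarith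
  -- 2 B x ≤ ω D
  have h7 : 2 * B * x ≤ ω * D := by
    have h8 : 2 * B * x * τ ≤ (ω * D) * τ := by
      have : 0 ≤ θ * x * D := by positivity
      nlinarith
    exact le_of_mul_le_mul_right h8 hτ0
  rw [hre, him]
  have e : 1 / 4 + (ω * x + θ * τ) / D - B * (x ^ 2 - τ ^ 2) / D ^ 2 +
      ((θ * x - ω * τ) / D + 2 * B * x * τ / D ^ 2) =
      1 / 4 + ((ω * (x - τ) + θ * (x + τ)) * D - B * (x ^ 2 - τ ^ 2 - 2 * x * τ)) / D ^ 2 := by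
    field_simp
    ring
  rw [e]
  have h9 : 0 ≤ (ω * (x - τ) + θ * (x + τ)) * D - B * (x ^ 2 - τ ^ 2 - 2 * x * τ) := by
    have h10 : 0 ≤ θ * (x + τ) * D := by positivity
    rcases le_or_gt (x ^ 2 - τ ^ 2 - 2 * x * τ) 0 with h | h
    · have h11 : 0 ≤ -(B * (x ^ 2 - τ ^ 2 - 2 * x * τ)) := by
        have := mul_nonpos_of_nonneg_of_nonpos hB h; linarith
      have h12 : 0 ≤ ω * (x - τ) * D := by
        apply mul_nonneg (mul_nonneg hω0.le (by linarith)) hDpos.le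
      nlinarith
    · -- B (x²-τ²-2xτ) ≤ B x (x - 2τ) ≤ ω D (x-2τ)/2
      have h13 : B * (x ^ 2 - τ ^ 2 - 2 * x * τ) ≤ B * x * (x - 2 * τ) := by
        nlinarith [mul_nonneg hB (sq_nonneg τ)]
      have h14 : 0 < x - 2 * τ := by
        by_contra hc
        push Not at hc
        have : x * (x - 2 * τ) ≤ 0 := mul_nonpos_of_nonneg_of_nonpos hxpos.le hc
        nlinarith [sq_nonneg τ]
      have h15 : 2 * (B * x * (x - 2 * τ)) ≤ ω * D * (x - 2 * τ) := by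
        have := mul_le_mul_of_nonneg_right h7 h14.le
        linarith
      have h16 : 0 ≤ ω * D * x := by positivity
      have h17 : ω * (x - τ) * D = ω * D * (x - 2 * τ) / 2 + ω * D * x / 2 := by ring
      nlinarith
  positivity

/-- `Im Θ ≥ -(71/100)|Θ|` for `Im σ ≥ 0`. -/
lemma Th_sector' {sg : ℂ} {B ρ τ : ℝ} (hρ : 0 < ρ) (hτ : 0 ≤ τ) (hsg : 0 ≤ sg.im) (hB : 0 ≤ B) :
    -(71 / 100 * ‖Th sg B (ray ρ τ)‖) ≤ (Th sg B (ray ρ τ)).im := by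
  set Θ := Th sg B (ray ρ τ) with hΘ
  rcases Th_sector hρ hτ hsg hB with h | h
  · have := norm_nonneg Θ; linarith
  · rcases le_or_gt 0 Θ.im with h2 | h2
    · have := norm_nonneg Θ; linarith
    · have h3 : 2 * Θ.im ^ 2 ≤ ‖Θ‖ ^ 2 := by
        rw [← Complex.normSq_eq_norm_sq, Complex.normSq_apply]; nlinarith
      have h4 : (-Θ.im) ^ 2 ≤ (71 / 100 * ‖Θ‖) ^ 2 := by nlinarith [sq_nonneg ‖Θ‖]
      have := le_of_sq_le_sq h4 (by positivity)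
      linarith

end Vale.Agent.P139.H355
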