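import Vale.Agent.P139.H355.Geo

/-!
# Uniform bounds for `Θ` and for `T = (-2iΘ)^{1/2}` on the ray, for `Im σ ≥ -θ₀`.
-/

noncomputable section

open Filter Topology Set Complex

namespace Vale.Agent.P139.H355

lemma aux_nd {ε θ₀ ρb M M' X X' : ℝ} (hε : 0 < ε) (hε1 : ε ≤ 1) (hP : 0 ≤ θ₀ * ρb)
    (hMM' : M' ≤ M + θ₀ * ρb) (h2 : 10 * (θ₀ * ρb) ≤ ε * M) (hnd : ε * M ≤ X)
    (h1 : X ≤ X' + θ₀ * ρb) : ε / 2 * M' ≤ X' := by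
  have h3 : ε * M' ≤ ε * M + ε * (θ₀ * ρb) := by
    have := mul_le_mul_of_nonneg_left hMM' hε.le; linarith
  have h4 : ε * (θ₀ * ρb) ≤ 1 * (θ₀ * ρb) := by gcongr
  have h5 : ε / 2 * M' = ε * M' / 2 := by ring
  rw [h5]
  linarith

lemma aux_sum {ρ ρb H s B : ℝ} (hρρ : ρ ≤ ρb) (hρb : 0 < ρb) (hH0 : 0 < H)
    (hs : 0 ≤ s) (hB : 0 ≤ B) (hbig : 4 * ρb * H + 4 * H ^ 2 ≤ s * ρ + B) :
    H ≤ s + Real.sqrt B := by
  have hp3 : 0 ≤ 4 * ρb * H := by positivity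
  have hp4 : 0 ≤ 4 * H ^ 2 := by positivity
  rcases le_total (2 * (s * ρ)) (s * ρ + B) with h | h
  · have hB2 : 2 * H ^ 2 ≤ B := by linarith
    have : H ≤ Real.sqrt B := Real.le_sqrt_of_sq_le (by nlinarith)
    linarith
  · have h1 : s * ρ ≤ s * ρb := by gcongr
    have h2 : H ≤ s := by
      have : ρb * (2 * H) ≤ ρb * s := by linarith
      have := le_of_mul_le_mul_left this hρb
      linarith
    linarith [Real.sqrt_nonneg B]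

lemma aux_small {ε θ₀ θ₁ H n s B X : ℝ} (hε : 0 < ε) (hn : 0 < n) (hB : 0 ≤ B)
    (hθ1b : θ₁ ≤ θ₀) (hH : H = 1000 * θ₀ / ε + 1) (hsum : H ≤ s + Real.sqrt B)
    (hlow : ε / 2 / 10 * (1 / 4 + s / n + B / n ^ 2) ≤ X) : θ₁ / n ≤ 1 / 50 * X := by
  have hamgm : Real.sqrt B / n ≤ 1 / 4 + B / n ^ 2 := by
    have h1 : (Real.sqrt B / n) ^ 2 = B / n ^ 2 := by
      rw [div_pow, Real.sq_sqrt hB]
    nlinarith [sq_nonneg (Real.sqrt B / n - 1 / 2)]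
  have h1 : ε / 2 / 10 * ((s + Real.sqrt B) / n) ≤ X := by
    refine le_trans ?_ hlow
    have : (s + Real.sqrt B) / n ≤ 1 / 4 + s / n + B / n ^ 2 := by
      rw [add_div]; linarith
    gcongr
  have h2 : ε / 2 / 10 * (H / n) ≤ X := by
    refine le_trans ?_ h1
    gcongr
  have h4 : 50 * θ₁ ≤ ε / 2 / 10 * H := by
    have : ε / 2 / 10 * H = 50 * θ₀ + ε / 20 := by rw [hH]; field_simp; ring
    rw [this]; linarith
  have h3 : 50 * (θ₁ / n) ≤ ε / 2 / 10 * (H / n) := by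
    have e1 : 50 * (θ₁ / n) = 50 * θ₁ / n := by ring
    have h5 : ε / 2 / 10 * (H / n) = (ε / 2 / 10 * H) / n := by ring
    rw [e1, h5]; gcongr
  linarith

lemma aux_final {ε s s' n B θ₁ X Y : ℝ} (hε : 0 < ε) (hε1 : ε ≤ 1)
    (hX : 0 ≤ X) (h1 : s / n ≤ s' / n + θ₁ / n)
    (hlow : ε / 2 / 10 * (1 / 4 + s' / n + B / n ^ 2) ≤ X)
    (hsmall : θ₁ / n ≤ 1 / 50 * X) (hY : 49 / 50 * X ≤ Y) :
    ε / 25 * (1 / 4 + s / n + B / n ^ 2) ≤ Y := by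
  have h3 : ε / 20 * (1 / 4 + s / n + B / n ^ 2) ≤
      ε / 20 * (1 / 4 + s' / n + B / n ^ 2) + ε / 20 * (θ₁ / n) := by
    have := mul_le_mul_of_nonneg_left h1 (by positivity : 0 ≤ ε / 20)
    linarith
  have h4 : ε / 20 * (θ₁ / n) ≤ ε / 20 * (1 / 50 * X) := by gcongr
  have h5 : ε / 20 * (1 / 50 * X) ≤ 1 / 20 * (1 / 50 * X) := by gcongr
  have e1 : ε / 2 / 10 = ε / 20 := by ring
  rw [e1] at hlow
  have h6 : ε / 25 * (1 / 4 + s / n + B / n ^ 2) =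
      4 / 5 * (ε / 20 * (1 / 4 + s / n + B / n ^ 2)) := by ring
  rw [h6]
  linarith

/-- Lower bound and sector condition for `Im σ ≥ -θ₀`. -/
theorem Th_bounds {θ₀ ρb ε : ℝ} (hθ : 0 ≤ θ₀) (hε : 0 < ε) (hε1 : ε ≤ 1) (hρb : 0 < ρb) :
    ∃ N : ℝ, 0 < N ∧ ∀ (sg : ℂ) (B ρ : ℝ), 0 < ρ → ρ ≤ ρb → -θ₀ ≤ sg.im → 0 ≤ B →
      ε * (‖sg‖ * ρ + B) ≤ ‖sg * ρ - B‖ → N ≤ ‖sg‖ * ρ + B → ∀ τ : ℝ, 0 ≤ τ →
      ε / 25 * (1 / 4 + ‖sg‖ / ‖ray ρ τ‖ + B / ‖ray ρ τ‖ ^ 2) ≤ ‖Th sg B (ray ρ τ)‖ ∧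
      -(3 / 4 * ‖Th sg B (ray ρ τ)‖) ≤ (Th sg B (ray ρ τ)).im := by
  obtain ⟨H, hH⟩ : ∃ H : ℝ, H = 1000 * θ₀ / ε + 1 := ⟨_, rfl⟩
  have hH0 : 0 < H := by rw [hH]; positivity
  have hP : 0 ≤ θ₀ * ρb := mul_nonneg hθ hρb.le
  refine ⟨20 * ρb ^ 2 / ε + 10 * (θ₀ * ρb) / ε + (4 * ρb * H + 4 * H ^ 2) + 1, by positivity, ?_⟩
  intro sg B ρ hρ hρρ him hB hnd hbig τ hτ
  have hn := ray_norm_pos hρ hτ
  obtain ⟨θ₁, hθ1⟩ : ∃ θ₁ : ℝ, θ₁ = max 0 (-sg.im) := ⟨_, rfl⟩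
  have hθ1a : 0 ≤ θ₁ := by rw [hθ1]; exact le_max_left _ _
  have hθ1b : θ₁ ≤ θ₀ := by rw [hθ1]; exact max_le hθ (by linarith)
  have hθ1c : -sg.im ≤ θ₁ := by rw [hθ1]; exact le_max_right _ _
  obtain ⟨sg', hsg'⟩ : ∃ sg' : ℂ, sg' = sg + I * θ₁ := ⟨_, rfl⟩
  have hsg'im : 0 ≤ sg'.im := by
    have : sg'.im = sg.im + θ₁ := by simp [hsg']
    rw [this]; linarith
  have hdiff : ‖sg' - sg‖ = θ₁ := by
    have : sg' - sg = I * θ₁ := by rw [hsg']; ring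
    rw [this, norm_mul, Complex.norm_I, one_mul, Complex.norm_real, Real.norm_of_nonneg hθ1a]
  have hs1 : ‖sg‖ ≤ ‖sg'‖ + θ₁ := by
    have : sg = sg' - (sg' - sg) := by ring
    calc ‖sg‖ = ‖sg' - (sg' - sg)‖ := by rw [← this]
      _ ≤ ‖sg'‖ + ‖sg' - sg‖ := norm_sub_le _ _
      _ = _ := by rw [hdiff]
  have hs2 : ‖sg'‖ ≤ ‖sg‖ + θ₁ := by
    have : sg' = sg + (sg' - sg) := by ring
    calc ‖sg'‖ = ‖sg + (sg' - sg)‖ := by rw [← this]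
      _ ≤ ‖sg‖ + ‖sg' - sg‖ := norm_add_le _ _
      _ = _ := by rw [hdiff]
  have hθρ : θ₁ * ρ ≤ θ₀ * ρb := by gcongr
  have hMM' : ‖sg'‖ * ρ + B ≤ (‖sg‖ * ρ + B) + θ₀ * ρb := by
    have := mul_le_mul_of_nonneg_right hs2 hρ.le
    linarith
  have hM'M : ‖sg‖ * ρ + B ≤ (‖sg'‖ * ρ + B) + θ₀ * ρb := by
    have := mul_le_mul_of_nonneg_right hs1 hρ.le
    linarith
  have hp1 : 0 ≤ 20 * ρb ^ 2 / ε := by positivity
  have hp2 : 0 ≤ 10 * (θ₀ * ρb) / ε := by positivity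
  have hp3 : 0 ≤ 4 * ρb * H + 4 * H ^ 2 := by positivity
  have hθε : θ₀ * ρb ≤ 10 * (θ₀ * ρb) / ε := by
    rw [le_div_iff₀ hε]; nlinarith
  -- non-degeneracy for sg'
  have hnd' : ε / 2 * (‖sg'‖ * ρ + B) ≤ ‖sg' * ρ - B‖ := by
    have h1 : ‖sg * ρ - B‖ ≤ ‖sg' * ρ - B‖ + θ₀ * ρb := by
      have e : sg * ρ - B = (sg' * ρ - B) - (sg' - sg) * ρ := by ring
      rw [e]
      refine (norm_sub_le _ _).trans ?_
      rw [norm_mul, hdiff, Complex.norm_real, Real.norm_of_nonneg hρ.le]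
      linarith
    have h2 : 10 * (θ₀ * ρb) ≤ ε * (‖sg‖ * ρ + B) := by
      have : 10 * (θ₀ * ρb) / ε ≤ ‖sg‖ * ρ + B := by linarith
      rw [div_le_iff₀ hε] at this; linarith
    exact aux_nd hε hε1 hP hMM' h2 hnd h1
  have hbig' : 10 * ρ ^ 2 / (ε / 2) ≤ ‖sg'‖ * ρ + B := by
    have h1 : 10 * ρ ^ 2 / (ε / 2) = 20 * ρ ^ 2 / ε := by field_simp; norm_num
    have h2 : 20 * ρ ^ 2 / ε ≤ 20 * ρb ^ 2 / ε := by gcongr
    rw [h1]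
    linarith
  have hlow := Th_lower (τ := τ) hρ hτ (by positivity : 0 < ε / 2) (by linarith) hsg'im hB hnd' hbig'
  have hsec := Th_sector' (τ := τ) hρ hτ hsg'im hB
  have hbigsum : H ≤ ‖sg'‖ + Real.sqrt B :=
    aux_sum (ρ := ρ) hρρ hρb hH0 (norm_nonneg _) hB (by linarith)
  have hsmall : θ₁ / ‖ray ρ τ‖ ≤ 1 / 50 * ‖Th sg' B (ray ρ τ)‖ :=
    aux_small hε hn hB hθ1b hH hbigsum hlow
  have hΘd : Th sg' B (ray ρ τ) - Th sg B (ray ρ τ) = (sg' - sg) / ray ρ τ := by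
    simp only [Th]; ring
  have hΘdn : ‖Th sg' B (ray ρ τ) - Th sg B (ray ρ τ)‖ = θ₁ / ‖ray ρ τ‖ := by
    rw [hΘd, norm_div, hdiff]
  generalize Th sg' B (ray ρ τ) = Θ' at *
  generalize Th sg B (ray ρ τ) = Θ at *
  have hΘlow : 49 / 50 * ‖Θ'‖ ≤ ‖Θ‖ := by
    have : ‖Θ'‖ ≤ ‖Θ‖ + ‖Θ' - Θ‖ := by
      have e : Θ' = Θ + (Θ' - Θ) := by ring
      calc ‖Θ'‖ = ‖Θ + (Θ' - Θ)‖ := by rw [← e]
        _ ≤ _ := norm_add_le _ _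
    rw [hΘdn] at this
    linarith
  constructor
  · have h1 : ‖sg‖ / ‖ray ρ τ‖ ≤ ‖sg'‖ / ‖ray ρ τ‖ + θ₁ / ‖ray ρ τ‖ := by rw [← add_div]; gcongr
    exact aux_final hε hε1 (norm_nonneg _) h1 hlow hsmall hΘlow
  · have h1 : Θ'.im - θ₁ / ‖ray ρ τ‖ ≤ Θ.im := by
      have h2 : |(Θ' - Θ).im| ≤ θ₁ / ‖ray ρ τ‖ := by rw [← hΘdn]; exact Complex.abs_im_le_norm _
      have h3 := (abs_le.mp h2).2
      rw [Complex.sub_im] at h3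
      linarith
    linarith [norm_nonneg Θ']

/-- `T = (-2iΘ)^{1/2}`. -/
def TT (Θ : ℂ) : ℂ := (-2 * I * Θ) ^ (1 / 2 : ℂ)

lemma TT_sq (Θ : ℂ) : TT Θ ^ 2 = -2 * I * Θ := by
  unfold TT
  rw [← Complex.cpow_natCast, ← Complex.cpow_mul]
  · norm_num
  · have := Complex.neg_pi_lt_arg (-2 * I * Θ)
    have h2 : (Complex.log (-2 * I * Θ) * (1 / 2)).im = arg (-2 * I * Θ) / 2 := by
      rw [Complex.mul_im]
      have : ((1 / 2 : ℂ)).im = 0 := by norm_num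
      have h3 : ((1 / 2 : ℂ)).re = 1 / 2 := by norm_num
      rw [this, h3, Complex.log_im]; ring
    rw [h2]; linarith [Real.pi_pos]
  · have := Complex.arg_le_pi (-2 * I * Θ)
    have h2 : (Complex.log (-2 * I * Θ) * (1 / 2)).im = arg (-2 * I * Θ) / 2 := by
      rw [Complex.mul_im]
      have : ((1 / 2 : ℂ)).im = 0 := by norm_num
      have h3 : ((1 / 2 : ℂ)).re = 1 / 2 := by norm_num
      rw [this, h3, Complex.log_im]; ring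
    rw [h2]; linarith [Real.pi_pos]

lemma TT_norm_sq (Θ : ℂ) : ‖TT Θ‖ ^ 2 = 2 * ‖Θ‖ := by
  rw [← norm_pow, TT_sq, norm_mul, norm_mul]
  simp

lemma TT_re_nonneg (Θ : ℂ) : 0 ≤ (TT Θ).re := by
  unfold TT
  rcases eq_or_ne (-2 * I * Θ) 0 with h | h
  · rw [h, Complex.zero_cpow (by norm_num)]; simp
  · rw [Complex.cpow_def_of_ne_zero h, Complex.exp_re]
    apply mul_nonneg (Real.exp_pos _).le
    have h2 : (Complex.log (-2 * I * Θ) * (1 / 2)).im = arg (-2 * I * Θ) / 2 := by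
      rw [Complex.mul_im]
      have : ((1 / 2 : ℂ)).im = 0 := by norm_num
      have h3 : ((1 / 2 : ℂ)).re = 1 / 2 := by norm_num
      rw [this, h3, Complex.log_im]; ring
    rw [h2]
    apply Real.cos_nonneg_of_neg_pi_div_two_le_of_le
    · linarith [Complex.neg_pi_lt_arg (-2 * I * Θ)]
    · linarith [Complex.arg_le_pi (-2 * I * Θ)]

lemma TT_re_sq (Θ : ℂ) : (TT Θ).re ^ 2 = ‖Θ‖ + Θ.im := by
  have h1 := TT_norm_sq Θ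
  have h2 : ((TT Θ) ^ 2).re = (TT Θ).re ^ 2 - (TT Θ).im ^ 2 := by
    rw [pow_two, Complex.mul_re]; ring
  rw [TT_sq] at h2
  have h3 : (-2 * I * Θ).re = 2 * Θ.im := by
    simp [Complex.mul_re, Complex.mul_im]
  rw [h3] at h2
  rw [← Complex.normSq_eq_norm_sq, Complex.normSq_apply] at h1
  nlinarith

/-- In the sector, `Re T ≥ |T|/3`. -/
lemma TT_re_ge {Θ : ℂ} (h : -(3 / 4 * ‖Θ‖) ≤ Θ.im) : ‖TT Θ‖ / 3 ≤ (TT Θ).re := by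
  have h1 := TT_re_sq Θ
  have h2 := TT_norm_sq Θ
  have h3 : (‖TT Θ‖ / 3) ^ 2 ≤ (TT Θ).re ^ 2 := by
    rw [h1, div_pow, h2]; nlinarith [norm_nonneg Θ]
  exact le_of_sq_le_sq h3 (TT_re_nonneg Θ)

lemma TT_slit {Θ : ℂ} (h : -(3 / 4 * ‖Θ‖) ≤ Θ.im) (h0 : Θ ≠ 0) : (-2 * I * Θ) ∈ slitPlane := by
  rw [Complex.mem_slitPlane_iff]
  by_contra hc
  push Not at hc
  obtain ⟨h1, h2⟩ := hc
  have hre : (-2 * I * Θ).re = 2 * Θ.im := by simp [Complex.mul_re, Complex.mul_im]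
  have him : (-2 * I * Θ).im = -(2 * Θ.re) := by simp [Complex.mul_re, Complex.mul_im]
  rw [hre] at h1
  rw [him] at h2
  have h3 : Θ.re = 0 := by linarith
  have h4 : ‖Θ‖ ^ 2 = Θ.im ^ 2 := by
    rw [← Complex.normSq_eq_norm_sq, Complex.normSq_apply, h3]; ring
  have h5 : 0 < ‖Θ‖ := norm_pos_iff.mpr h0
  nlinarith

lemma hasDerivAt_TT {Θ : ℝ → ℂ} {Θ' : ℂ} {t : ℝ} (hΘ : HasDerivAt Θ Θ' t)
    (h : -(3 / 4 * ‖Θ t‖) ≤ (Θ t).im) (h0 : Θ t ≠ 0) :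
    HasDerivAt (fun s => TT (Θ s)) (-I * Θ' / TT (Θ t)) t := by
  have h1 : HasDerivAt (fun s => -2 * I * Θ s) (-2 * I * Θ') t := hΘ.const_mul _
  have hne : (-2 * I * Θ t) ≠ 0 := by
    simp [h0]
  have hc : HasDerivAt (fun z : ℂ => z ^ (1 / 2 : ℂ)) ((1 / 2 : ℂ) * (-2 * I * Θ t) ^ ((1 / 2 : ℂ) - 1))
      (-2 * I * Θ t) := by
    have := (hasDerivAt_id (-2 * I * Θ t)).cpow_const (c := (1 / 2 : ℂ)) (TT_slit h h0)
    simpa using this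
  have h2 : HasDerivAt (fun s => (-2 * I * Θ s) ^ (1 / 2 : ℂ))
      ((1 / 2 : ℂ) * (-2 * I * Θ t) ^ ((1 / 2 : ℂ) - 1) * (-2 * I * Θ')) t := by
    have := (hc.hasFDerivAt.restrictScalars ℝ).comp_hasDerivAt t h1
    refine HasDerivAt.congr_deriv this ?_
    simp only [ContinuousLinearMap.coe_restrictScalars', ContinuousLinearMap.toSpanSingleton_apply,
      smul_eq_mul]
    ring
  have hT : TT (Θ t) ≠ 0 := by
    intro hz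
    have := TT_sq (Θ t)
    rw [hz] at this
    apply hne; rw [← this]; simp
  refine h2.congr_deriv ?_
  have h3 : (-2 * I * Θ t) ^ ((1 / 2 : ℂ) - 1) = (TT (Θ t))⁻¹ := by
    unfold TT
    rw [← Complex.cpow_neg]; norm_num
  rw [h3]
  field_simp

end Vale.Agent.P139.H355
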