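import Vale.Agent.P139.H355.Asy
import Vale.Agent.P139.H355.Geo2
import Vale.Agent.P139.H355.Cone

/-!
# Theorem X: uniform logarithmic derivative of the slow Kummer solution
-/

noncomputable section

open Filter Topology Set Complex

namespace Vale.Agent.P139.H355

open Vale.Agent.P139.KU

/-- Along the ray the slow solution does not vanish eventually and `J (a+1) / J a → 0`. -/
lemma J_ratio {a : ℂ} (c : ℂ) (ha : 0 < a.re) {ρ : ℝ} (hρ : 0 < ρ) :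
    (∀ᶠ τ in atTop, J a c (ray ρ τ) ≠ 0) ∧
      Tendsto (fun τ => J (a + 1) c (ray ρ τ) / J a c (ray ρ τ)) atTop (𝓝 0) := by
  have ha1 : 0 < (a + 1).re := by simp; linarith
  obtain ⟨C1, hC1⟩ : ∃ C1 : ℝ, C1 = Real.exp (|c.im| * (Real.pi / 2)) * MJ (a + 1).re |c.re| :=
    ⟨_, rfl⟩
  obtain ⟨C2, hC2⟩ : ∃ C2 : ℝ, C2 = ‖c‖ * Real.exp (|c.im| * (Real.pi / 2)) *
    MJ (a.re + 1) |c.re - 1| := ⟨_, rfl⟩
  have hC1n : 0 ≤ C1 := by
    rw [hC1]; exact mul_nonneg (Real.exp_pos _).le (MJ_nonneg _ _)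
  have hC2n : 0 ≤ C2 := by
    rw [hC2]; exact mul_nonneg (by positivity) (MJ_nonneg _ _)
  have hΓ : 0 < ‖Complex.Gamma a‖ := norm_pos_iff.mpr (Complex.Gamma_ne_zero_of_re_pos ha)
  obtain ⟨c0, hc0⟩ : ∃ c0 : ℝ, c0 = ‖Complex.Gamma a‖ * ((1 / 2 : ℝ) ^ a.re *
    Real.exp (-(Real.pi * |a.im|))) := ⟨_, rfl⟩
  have hc0p : 0 < c0 := by rw [hc0]; positivity
  -- lower bound
  have hlow : ∀ τ : ℝ, 0 ≤ τ → c0 * (ρ + τ) ^ (-a.re) ≤
      ‖(1 / ray ρ τ) ^ a * Complex.Gamma a‖ := by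
    intro τ hτ
    have hne := ray_ne hρ hτ
    have hx : 0 < ρ + τ := by linarith
    have h1 : (1 / ray ρ τ) ≠ 0 := one_div_ne_zero hne
    rw [norm_mul, Complex.norm_cpow_of_ne_zero h1, div_eq_mul_inv, ← Real.exp_neg]
    have h2 : ‖ray ρ τ‖ ≤ 2 * (ρ + τ) := by
      calc ‖ray ρ τ‖ ≤ |(ray ρ τ).re| + |(ray ρ τ).im| := Complex.norm_le_abs_re_add_abs_im _
        _ = (ρ + τ) + τ := by rw [ray_re, ray_im, abs_of_pos hx, abs_of_nonneg hτ]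
        _ ≤ 2 * (ρ + τ) := by linarith
    have h3 : 1 / 2 * (ρ + τ)⁻¹ ≤ ‖1 / ray ρ τ‖ := by
      rw [norm_div, norm_one, one_div, one_div, ← mul_inv]
      exact inv_anti₀ (norm_pos_iff.mpr hne) h2
    have h4 : (1 / 2 : ℝ) ^ a.re * (ρ + τ) ^ (-a.re) ≤ ‖1 / ray ρ τ‖ ^ a.re := by
      rw [Real.rpow_neg hx.le, ← Real.inv_rpow hx.le, ← Real.mul_rpow (by norm_num) (by positivity)]
      exact Real.rpow_le_rpow (by positivity) h3 ha.le
    have h5 : Real.exp (-(Real.pi * |a.im|)) ≤ Real.exp (-(arg (1 / ray ρ τ) * a.im)) := by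
      apply Real.exp_le_exp.mpr
      apply neg_le_neg
      calc arg (1 / ray ρ τ) * a.im ≤ |arg (1 / ray ρ τ) * a.im| := le_abs_self _
        _ = |arg (1 / ray ρ τ)| * |a.im| := abs_mul _ _
        _ ≤ Real.pi * |a.im| := by
            gcongr
            exact Complex.abs_arg_le_pi _
    rw [hc0]
    calc ‖Complex.Gamma a‖ * ((1 / 2 : ℝ) ^ a.re * Real.exp (-(Real.pi * |a.im|))) *
          (ρ + τ) ^ (-a.re)
        = (((1 / 2 : ℝ) ^ a.re * (ρ + τ) ^ (-a.re)) * Real.exp (-(Real.pi * |a.im|))) *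
          ‖Complex.Gamma a‖ := by ring
      _ ≤ (‖1 / ray ρ τ‖ ^ a.re * Real.exp (-(arg (1 / ray ρ τ) * a.im))) *
          ‖Complex.Gamma a‖ := by gcongr
  -- bounds for τ large
  have hmain : ∀ τ : ℝ, 0 ≤ τ → 1 ≤ τ → 2 * C2 / c0 ≤ τ →
      J a c (ray ρ τ) ≠ 0 ∧ ‖J (a + 1) c (ray ρ τ) / J a c (ray ρ τ)‖ ≤ 2 * C1 / c0 * (ρ + τ)⁻¹ := by
    intro τ hτ hτ1 hτ2
    have hx : 0 < ρ + τ := by linarith
    have hre : 1 ≤ (ray ρ τ).re := by rw [ray_re]; linarith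
    have b1 := nrm_J_le c ha1 hre
    have b2 := nrm_J_sub_le c ha hre
    rw [← hC1] at b1
    rw [← hC2] at b2
    rw [ray_re] at b1 b2
    have b3 := hlow τ hτ
    have e1 : (ρ + τ) ^ (-(a.re + 1)) = (ρ + τ) ^ (-a.re) * (ρ + τ)⁻¹ := by
      rw [show -(a.re + 1) = -a.re + (-1) by ring, Real.rpow_add hx, Real.rpow_neg_one]
    have e2 : (a + 1).re = a.re + 1 := by simp
    rw [e2, e1] at b1
    rw [e1] at b2
    have hP : 0 < (ρ + τ) ^ (-a.re) := by positivity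
    set P := (ρ + τ) ^ (-a.re) with hPdef
    have h6 : C2 * (ρ + τ)⁻¹ ≤ c0 / 2 := by
      rw [← div_eq_mul_inv, div_le_iff₀ hx]
      rw [div_le_iff₀ hc0p] at hτ2
      nlinarith
    have h7 : c0 / 2 * P ≤ ‖J a c (ray ρ τ)‖ := by
      have h8 : ‖(1 / ray ρ τ) ^ a * Complex.Gamma a‖ ≤ ‖J a c (ray ρ τ)‖ +
          ‖J a c (ray ρ τ) - (1 / ray ρ τ) ^ a * Complex.Gamma a‖ := by
        have := norm_sub_le (J a c (ray ρ τ)) (J a c (ray ρ τ) - (1 / ray ρ τ) ^ a * Complex.Gamma a)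
        rwa [sub_sub_cancel] at this
      have h9 : C2 * (P * (ρ + τ)⁻¹) ≤ c0 / 2 * P := by
        calc C2 * (P * (ρ + τ)⁻¹) = (C2 * (ρ + τ)⁻¹) * P := by ring
          _ ≤ c0 / 2 * P := by gcongr
      have h10 : c0 * P = c0 / 2 * P + c0 / 2 * P := by ring
      linarith
    have h11 : 0 < ‖J a c (ray ρ τ)‖ := lt_of_lt_of_le (by positivity) h7
    refine ⟨norm_pos_iff.mp h11, ?_⟩
    rw [norm_div, div_le_iff₀ h11]
    calc ‖J (a + 1) c (ray ρ τ)‖ ≤ C1 * (P * (ρ + τ)⁻¹) := b1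
      _ = 2 * C1 / c0 * (ρ + τ)⁻¹ * (c0 / 2 * P) := by field_simp
      _ ≤ 2 * C1 / c0 * (ρ + τ)⁻¹ * ‖J a c (ray ρ τ)‖ := by gcongr
  constructor
  · filter_upwards [eventually_ge_atTop (0 : ℝ), eventually_ge_atTop (1 : ℝ),
      eventually_ge_atTop (2 * C2 / c0)] with τ h1 h2 h3
    exact (hmain τ h1 h2 h3).1
  · rw [tendsto_zero_iff_norm_tendsto_zero]
    have ht : Tendsto (fun τ : ℝ => 2 * C1 / c0 * (ρ + τ)⁻¹) atTop (𝓝 0) := by
      have h1 : Tendsto (fun τ : ℝ => (ρ + τ)⁻¹) atTop (𝓝 0) :=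
        tendsto_inv_atTop_zero.comp (tendsto_atTop_add_const_left _ _ tendsto_id)
      simpa using h1.const_mul (2 * C1 / c0)
    refine squeeze_zero' (Eventually.of_forall fun τ => norm_nonneg _) ?_ ht
    filter_upwards [eventually_ge_atTop (0 : ℝ), eventually_ge_atTop (1 : ℝ),
      eventually_ge_atTop (2 * C2 / c0)] with τ h1 h2 h3
    exact (hmain τ h1 h2 h3).2

lemma hasDerivAt_ray (ρ τ : ℝ) : HasDerivAt (ray ρ) (1 + I) τ := by
  unfold ray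
  have h1 : HasDerivAt (fun t : ℝ => (t : ℂ)) 1 τ := Complex.ofRealCLM.hasDerivAt
  simpa using (h1.mul_const (1 + I)).const_add (ρ : ℂ)

lemma ray_slit {ρ τ : ℝ} (hρ : 0 < ρ) (hτ : 0 ≤ τ) : ray ρ τ ∈ slitPlane := by
  left; rw [ray_re]; linarith

/-- the gauge factor `ζ^{b/2} e^{iζ/2}` on the ray -/
def gE (b ρ τ : ℝ) : ℂ := cexp ((b : ℂ) / 2 * Complex.log (ray ρ τ) + I * ray ρ τ / 2)

lemma gE_ne (b ρ τ : ℝ) : gE b ρ τ ≠ 0 := Complex.exp_ne_zero _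

lemma hasDerivAt_gE {b ρ τ : ℝ} (hρ : 0 < ρ) (hτ : 0 ≤ τ) :
    HasDerivAt (gE b ρ) (gE b ρ τ * ((1 + I) * (b / (2 * ray ρ τ) + I / 2))) τ := by
  have h1 := hasDerivAt_ray ρ τ
  have h2 := h1.clog_real (ray_slit hρ hτ)
  have h3 : HasDerivAt (fun t => (b : ℂ) / 2 * Complex.log (ray ρ t) + I * ray ρ t / 2)
      ((b : ℂ) / 2 * ((1 + I) / ray ρ τ) + I * (1 + I) / 2) τ :=
    (h2.const_mul _).fun_add ((h1.const_mul I).div_const 2)
  have h4 := h3.cexp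
  unfold gE
  refine h4.congr_deriv ?_
  have hne := ray_ne hρ hτ
  field_simp

/-- the transformed solution on the ray -/
def yr (a c : ℂ) (b ρ τ : ℝ) : ℂ := gE b ρ τ * J a c (ray ρ τ)

/-- its derivative -/
def yr' (a c : ℂ) (b ρ τ : ℝ) : ℂ :=
  (1 + I) * (gE b ρ τ * (-J (a + 1) c (ray ρ τ) + (b / (2 * ray ρ τ) + I / 2) * J a c (ray ρ τ)))

lemma hasDerivAt_J_ray {a : ℂ} (c : ℂ) (ha : 0 < a.re) {ρ τ : ℝ} (hρ : 0 < ρ) (hτ : 0 ≤ τ) :
    HasDerivAt (fun t => J a c (ray ρ t)) ((1 + I) * (-J (a + 1) c (ray ρ τ))) τ := by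
  have h1 := hasDerivAt_J (ζ := ray ρ τ) c ha (by rw [ray_re]; linarith)
  have h2 := hasDerivAt_ray ρ τ
  have := h1.scomp τ h2
  simpa [Function.comp_def, smul_eq_mul] using this

lemma hasDerivAt_yr {a : ℂ} (c : ℂ) (ha : 0 < a.re) {b ρ τ : ℝ} (hρ : 0 < ρ) (hτ : 0 ≤ τ) :
    HasDerivAt (yr a c b ρ) (yr' a c b ρ τ) τ := by
  have h1 := hasDerivAt_gE (b := b) hρ hτ
  have h2 := hasDerivAt_J_ray c ha hρ hτ
  unfold yr yr'
  refine (h1.fun_mul h2).congr_deriv ?_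
  ring

lemma hasDerivAt_yr' {a : ℂ} (c : ℂ) (ha : 0 < a.re) {b ρ τ : ℝ} (hc : a + c + 1 = b)
    (hρ : 0 < ρ) (hτ : 0 ≤ τ) :
    HasDerivAt (yr' a c b ρ)
      (-2 * I * Th (I * (a - b / 2)) (b * (b - 2) / 4) (ray ρ τ) * yr a c b ρ τ) τ := by
  have ha1 : 0 < (a + 1).re := by simp; linarith
  have hne := ray_ne hρ hτ
  have h1 := hasDerivAt_gE (b := b) hρ hτ
  have h2 := hasDerivAt_J_ray c ha hρ hτ
  have h3 := hasDerivAt_J_ray c ha1 hρ hτ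
  have h4 : HasDerivAt (fun t => (b : ℂ) / (2 * ray ρ t) + I / 2)
      (-(b * (2 * (1 + I))) / (2 * ray ρ τ) ^ 2) τ := by
    have h5 : HasDerivAt (fun t => 2 * ray ρ t) (2 * (1 + I)) τ := (hasDerivAt_ray ρ τ).const_mul 2
    have h6 := (hasDerivAt_const τ (b : ℂ)).fun_div h5 (by simpa using hne)
    refine (h6.add_const (I / 2)).congr_deriv ?_
    simp
  have hode := J_ode (ζ := ray ρ τ) c ha (by rw [ray_re]; linarith)
  rw [hc] at hode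
  have h7 := (h1.fun_mul (h3.fun_neg.fun_add (h4.fun_mul h2))).const_mul (1 + I)
  unfold yr' yr Th
  refine h7.congr_deriv ?_
  rw [show a + 1 + 1 = a + 2 by ring]
  have e2 : J (a + 2) c (ray ρ τ) = ((b + I * ray ρ τ) * J (a + 1) c (ray ρ τ) -
      I * a * J a c (ray ρ τ)) / ray ρ τ := by
    rw [eq_div_iff hne]; linear_combination hode
  rw [e2]
  have hI : I ^ 2 = -1 := Complex.I_sq
  set z := ray ρ τ
  set E := gE b ρ τ
  set u0 := J a c z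
  set u1 := J (a + 1) c z
  push_cast
  field_simp
  ring_nf
  simp only [Complex.I_sq, show (I : ℂ) ^ 3 = -I by rw [pow_succ, Complex.I_sq]; ring,
    show (I : ℂ) ^ 4 = 1 by rw [show (4:ℕ) = 2 * 2 by norm_num, pow_mul, Complex.I_sq]; ring]
  ring

end Vale.Agent.P139.H355
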