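import Vale.Agent.P139.H355.ThX

/-!
# Theorem X, part 2: slow variation, behaviour at infinity, the theorem
-/

noncomputable section

open Filter Topology Set Complex

namespace Vale.Agent.P139.H355

open Vale.Agent.P139.KU

/-- derivative of `Θ` along the ray -/
def Th' (sg : ℂ) (B : ℝ) (ζ : ℂ) : ℂ := (1 + I) * (-sg / ζ ^ 2 + 2 * B / ζ ^ 3)

lemma hasDerivAt_Th_ray {sg : ℂ} {B ρ τ : ℝ} (hρ : 0 < ρ) (hτ : 0 ≤ τ) :
    HasDerivAt (fun t => Th sg B (ray ρ t)) (Th' sg B (ray ρ τ)) τ := by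
  have hne := ray_ne hρ hτ
  have h1 := hasDerivAt_ray ρ τ
  have h2 := (hasDerivAt_const τ sg).fun_div h1 hne
  have h3 := (hasDerivAt_const τ (B : ℂ)).fun_div (h1.fun_pow 2) (pow_ne_zero 2 hne)
  have h4 := (h2.const_add (1 / 4 : ℂ)).fun_sub h3
  unfold Th Th'
  refine h4.congr_deriv ?_
  push_cast
  field_simp
  ring

lemma norm_one_add_I_le : ‖(1 + I : ℂ)‖ ≤ 3 / 2 := by
  have h : ‖(1 + I : ℂ)‖ ^ 2 = 2 := by
    rw [← Complex.normSq_eq_norm_sq, Complex.normSq_apply]; simp; norm_num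
  nlinarith [norm_nonneg (1 + I : ℂ)]

lemma norm_Th'_le {sg : ℂ} {B ρ τ : ℝ} (hρ : 0 < ρ) (hτ : 0 ≤ τ) (hB : 0 ≤ B) :
    ‖Th' sg B (ray ρ τ)‖ ≤
      3 / ‖ray ρ τ‖ * (1 / 4 + ‖sg‖ / ‖ray ρ τ‖ + B / ‖ray ρ τ‖ ^ 2) := by
  have hn := ray_norm_pos hρ hτ
  set n := ‖ray ρ τ‖ with hnn
  unfold Th'
  rw [norm_mul]
  have h1 : ‖-sg / ray ρ τ ^ 2 + 2 * (B : ℂ) / ray ρ τ ^ 3‖ ≤ ‖sg‖ / n ^ 2 + 2 * B / n ^ 3 := by
    refine (norm_add_le _ _).trans ?_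
    rw [norm_div, norm_div, norm_neg, norm_pow, norm_pow, norm_mul, Complex.norm_ofNat,
      Complex.norm_real, Real.norm_eq_abs, abs_of_nonneg hB]
  have h2 : ‖sg‖ / n ^ 2 + 2 * B / n ^ 3 ≤ 2 / n * (1 / 4 + ‖sg‖ / n + B / n ^ 2) := by
    have e : 2 / n * (1 / 4 + ‖sg‖ / n + B / n ^ 2) - (‖sg‖ / n ^ 2 + 2 * B / n ^ 3) =
        1 / (2 * n) + ‖sg‖ / n ^ 2 := by field_simp; ring
    have : 0 ≤ 1 / (2 * n) + ‖sg‖ / n ^ 2 := by positivity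
    linarith
  calc ‖(1 + I : ℂ)‖ * ‖-sg / ray ρ τ ^ 2 + 2 * (B : ℂ) / ray ρ τ ^ 3‖
      ≤ 3 / 2 * (2 / n * (1 / 4 + ‖sg‖ / n + B / n ^ 2)) := by
        apply mul_le_mul norm_one_add_I_le (h1.trans h2) (norm_nonneg _) (by norm_num)
    _ = 3 / n * (1 / 4 + ‖sg‖ / n + B / n ^ 2) := by ring

/-- The slow variation bound. -/
lemma slow_bound {sg : ℂ} {B ρ τ δ ε : ℝ} (hρ : 0 < ρ) (hτ : 0 ≤ τ) (hB : 0 ≤ B)
    (hδ : 0 < δ) (hε : 0 < ε)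
    (hlow : δ * (1 / 4 + ‖sg‖ / ‖ray ρ τ‖ + B / ‖ray ρ τ‖ ^ 2) ≤ ‖Th sg B (ray ρ τ)‖)
    (hsec : -(3 / 4 * ‖Th sg B (ray ρ τ)‖) ≤ (Th sg B (ray ρ τ)).im)
    (hbig : 41 / (δ ^ 3 * ε ^ 2) ≤ ‖sg‖ * ρ + B) :
    ‖-I * Th' sg B (ray ρ τ) / TT (Th sg B (ray ρ τ))‖ ≤
      ε * (TT (Th sg B (ray ρ τ))).re * ‖TT (Th sg B (ray ρ τ))‖ := by
  have hn := ray_norm_pos hρ hτ
  have hnρ : ρ ≤ ‖ray ρ τ‖ := by have := ray_norm_ge ρ τ; linarith
  set n := ‖ray ρ τ‖ with hnn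
  set Θ := Th sg B (ray ρ τ) with hΘ
  obtain ⟨M, hM⟩ : ∃ M : ℝ, M = 1 / 4 + ‖sg‖ / n + B / n ^ 2 := ⟨_, rfl⟩
  have hMpos : 0 < M := by rw [hM]; positivity
  rw [← hM] at hlow
  have hd := norm_Th'_le (sg := sg) hρ hτ hB
  rw [← hnn, ← hM] at hd
  have hTsq := TT_norm_sq Θ
  have hTre := TT_re_ge hsec
  have hΘpos : 0 < ‖Θ‖ := lt_of_lt_of_le (by positivity) hlow
  have hx : 0 < ‖TT Θ‖ := by
    rcases (norm_nonneg (TT Θ)).lt_or_eq with h | h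
    · exact h
    · rw [← h] at hTsq; nlinarith
  set x := ‖TT Θ‖ with hxx
  -- n x ≥ 9/(δ ε) * ...
  have hn2 : ‖sg‖ * ρ + B ≤ n ^ 2 * M := by
    have e : n ^ 2 * M = n ^ 2 / 4 + ‖sg‖ * n + B := by rw [hM]; field_simp
    rw [e]
    have : ‖sg‖ * ρ ≤ ‖sg‖ * n := by gcongr
    have : 0 ≤ n ^ 2 / 4 := by positivity
    linarith
  have hnx : 9 / (δ * ε) ≤ 2 * (n * x) := by
    have h1 : (9 / (δ * ε)) ^ 2 ≤ (2 * (n * x)) ^ 2 := by
      have h2 : (2 * (n * x)) ^ 2 = 8 * (n ^ 2 * ‖Θ‖) := by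
        rw [mul_pow, mul_pow, hTsq]; ring
      rw [h2]
      have h3 : δ * (41 / (δ ^ 3 * ε ^ 2)) ≤ n ^ 2 * ‖Θ‖ := by
        calc δ * (41 / (δ ^ 3 * ε ^ 2)) ≤ δ * (n ^ 2 * M) := by
              apply mul_le_mul_of_nonneg_left (hbig.trans hn2) hδ.le
          _ = n ^ 2 * (δ * M) := by ring
          _ ≤ n ^ 2 * ‖Θ‖ := by gcongr
      have h4 : δ * (41 / (δ ^ 3 * ε ^ 2)) = 41 / (δ * ε) ^ 2 := by field_simp
      have h5 : (9 / (δ * ε)) ^ 2 = 81 / (δ * ε) ^ 2 := by rw [div_pow]; norm_num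
      rw [h5]
      rw [h4] at h3
      have h6 : 81 / (δ * ε) ^ 2 ≤ 8 * (41 / (δ * ε) ^ 2) := by
        rw [← mul_div_assoc]
        gcongr
        norm_num
      linarith
    exact le_of_sq_le_sq h1 (by positivity)
  rw [norm_div, norm_mul, norm_neg, Complex.norm_I, one_mul, div_le_iff₀ hx]
  -- ‖Th'‖ ≤ 3/n * M ≤ 3/(n δ) ‖Θ‖ = 3/(2 n δ) x²
  have h7 : ‖Th' sg B (ray ρ τ)‖ ≤ 3 / (2 * (n * δ)) * x ^ 2 := by
    refine hd.trans ?_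
    rw [hTsq]
    have : M ≤ ‖Θ‖ / δ := by rw [le_div_iff₀ hδ]; linarith
    calc 3 / n * M ≤ 3 / n * (‖Θ‖ / δ) := by gcongr
      _ = 3 / (2 * (n * δ)) * (2 * ‖Θ‖) := by field_simp
  have h8 : 3 / (2 * (n * δ)) * x ^ 2 ≤ ε / 3 * x ^ 3 := by
    have h9 : 9 ≤ 2 * (n * x) * (δ * ε) := by
      rwa [div_le_iff₀ (by positivity)] at hnx
    rw [div_mul_eq_mul_div, div_le_iff₀ (by positivity)]
    have : ε / 3 * x ^ 3 * (2 * (n * δ)) = (2 * (n * x) * (δ * ε)) / 3 * x ^ 2 := by ring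
    rw [this]
    have hx2 : 0 < x ^ 2 := by positivity
    nlinarith
  calc ‖Th' sg B (ray ρ τ)‖ ≤ ε / 3 * x ^ 3 := h7.trans h8
    _ = ε * (x / 3) * x * x := by ring
    _ ≤ ε * (TT Θ).re * x * x := by gcongr

lemma tendsto_inv_ray (ρ : ℝ) : Tendsto (fun τ => (ray ρ τ)⁻¹) atTop (𝓝 0) := by
  rw [tendsto_zero_iff_norm_tendsto_zero]
  have h1 : Tendsto (fun τ : ℝ => (ρ + τ)⁻¹) atTop (𝓝 0) :=
    tendsto_inv_atTop_zero.comp (tendsto_atTop_add_const_left _ _ tendsto_id)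
  refine squeeze_zero' (Eventually.of_forall fun τ => norm_nonneg _) ?_ h1
  filter_upwards [eventually_gt_atTop (-ρ)] with τ hτ
  rw [norm_inv]
  exact inv_anti₀ (by linarith) (ray_norm_ge ρ τ)

lemma tendsto_Th_ray (sg : ℂ) (B ρ : ℝ) :
    Tendsto (fun τ => Th sg B (ray ρ τ)) atTop (𝓝 (1 / 4)) := by
  have h := tendsto_inv_ray ρ
  have h2 := ((h.const_mul sg).const_add (1 / 4 : ℂ)).sub ((h.pow 2).const_mul (B : ℂ))
  refine (h2.congr fun τ => ?_).trans ?_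
  · unfold Th
    simp only [div_eq_mul_inv, inv_pow]
  · simp

lemma TT_quarter : TT (1 / 4) = (1 - I) / 2 := by
  have h1 := TT_sq (1 / 4)
  have h2 : ((1 - I) / 2) ^ 2 = -2 * I * (1 / 4 : ℂ) := by
    have : (I : ℂ) ^ 2 = -1 := Complex.I_sq
    linear_combination (1 / 4 : ℂ) * this
  have h3 : (TT (1 / 4) - (1 - I) / 2) * (TT (1 / 4) + (1 - I) / 2) = 0 := by
    linear_combination h1 - h2
  rcases mul_eq_zero.mp h3 with h | h
  · exact sub_eq_zero.mp h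
  · exfalso
    have h4 := congrArg Complex.re h
    have h5 := TT_re_nonneg (1 / 4)
    simp at h4
    norm_num at h4
    norm_num at h5
    linarith

lemma tendsto_TT_ray (sg : ℂ) (B ρ : ℝ) :
    Tendsto (fun τ => TT (Th sg B (ray ρ τ))) atTop (𝓝 ((1 - I) / 2)) := by
  rw [← TT_quarter]
  have hc : ContinuousAt TT (1 / 4) := by
    unfold TT
    apply ContinuousAt.cpow
    · fun_prop
    · exact continuousAt_const
    · rw [Complex.mem_slitPlane_iff]; right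
      simp
  exact hc.tendsto.comp (tendsto_Th_ray sg B ρ)

/-- recessiveness at infinity -/
lemma cone_at_infinity {a : ℂ} (c : ℂ) (ha : 0 < a.re) {b ρ : ℝ} (hρ : 0 < ρ) (sg : ℂ) (B : ℝ)
    {ε : ℝ} (hε : 0 < ε) :
    ∀ᶠ τ in atTop, ‖yr' a c b ρ τ + TT (Th sg B (ray ρ τ)) * yr a c b ρ τ‖ <
      ε * ‖yr' a c b ρ τ - TT (Th sg B (ray ρ τ)) * yr a c b ρ τ‖ := by
  obtain ⟨hne, hrat⟩ := J_ratio c ha hρ
  have hT := tendsto_TT_ray sg B ρ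
  have hp : Tendsto (fun τ => (1 + I) * (-(J (a + 1) c (ray ρ τ) / J a c (ray ρ τ)) +
      ((b : ℂ) / 2 * (ray ρ τ)⁻¹ + I / 2))) atTop
      (𝓝 ((1 + I) * (-0 + ((b : ℂ) / 2 * 0 + I / 2)))) :=
    (hrat.neg.add (((tendsto_inv_ray ρ).const_mul _).add_const _)).const_mul _
  have h1 := (hp.add hT).norm
  have h2 := ((hp.sub hT).norm).const_mul ε
  have e1 : ‖(1 + I) * (-0 + ((b : ℂ) / 2 * 0 + I / 2)) + (1 - I) / 2‖ = 0 := by
    rw [norm_eq_zero]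
    have : (I : ℂ) ^ 2 = -1 := Complex.I_sq
    linear_combination (1 / 2 : ℂ) * this
  have e2 : 0 < ε * ‖(1 + I) * (-0 + ((b : ℂ) / 2 * 0 + I / 2)) - (1 - I) / 2‖ := by
    apply mul_pos hε
    rw [norm_pos_iff]
    intro h
    have h5 := congrArg Complex.re h
    simp at h5
    norm_num at h5
  have h3 : ∀ᶠ τ in atTop, ‖(1 + I) * (-(J (a + 1) c (ray ρ τ) / J a c (ray ρ τ)) +
      ((b : ℂ) / 2 * (ray ρ τ)⁻¹ + I / 2)) + TT (Th sg B (ray ρ τ))‖ <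
      ε * ‖(1 + I) * (-(J (a + 1) c (ray ρ τ) / J a c (ray ρ τ)) +
      ((b : ℂ) / 2 * (ray ρ τ)⁻¹ + I / 2)) - TT (Th sg B (ray ρ τ))‖ :=
    h1.eventually_lt h2 (by rw [e1]; exact e2)
  filter_upwards [h3, hne, eventually_ge_atTop (0 : ℝ)] with τ h4 h5 h6
  have hz := ray_ne hρ h6
  have hy : yr a c b ρ τ ≠ 0 := mul_ne_zero (gE_ne _ _ _) h5
  have e3 : yr' a c b ρ τ = (1 + I) * (-(J (a + 1) c (ray ρ τ) / J a c (ray ρ τ)) +
      ((b : ℂ) / 2 * (ray ρ τ)⁻¹ + I / 2)) * yr a c b ρ τ := by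
    unfold yr' yr
    field_simp
  rw [e3, ← add_mul, ← sub_mul, norm_mul, norm_mul, ← mul_assoc]
  exact mul_lt_mul_of_pos_right h4 (norm_pos_iff.mpr hy)

/-- **Theorem X** (Kummer form).  Uniformly in all parameters in the nondegenerate large regime the
slow solution `J a c` of `ζ u'' + (b + iζ) u' + i a u = 0` has no zero at `ρ ∈ (0, ρb]` and its
logarithmic derivative is the WKB one up to a relative error `ε'`. -/
theorem thX {θ₀ ρb ε ε' : ℝ} (hθ : 0 ≤ θ₀) (hρb : 0 < ρb) (hε : 0 < ε) (hε1 : ε ≤ 1)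
    (hε' : 0 < ε') (hε'1 : ε' ≤ 1) :
    ∃ N : ℝ, 0 < N ∧ ∀ (a c : ℂ) (b ρ : ℝ), 0 < a.re → 2 ≤ b → a + c + 1 = b →
      -θ₀ ≤ a.re - b / 2 → 0 < ρ → ρ ≤ ρb →
      ε * (‖I * (a - b / 2)‖ * ρ + b * (b - 2) / 4) ≤
        ‖I * (a - b / 2) * ρ - ((b * (b - 2) / 4 : ℝ) : ℂ)‖ →
      N ≤ ‖I * (a - b / 2)‖ * ρ + b * (b - 2) / 4 →
      J a c ρ ≠ 0 ∧
      ‖(1 + I) * (-(J (a + 1) c ρ / J a c ρ) + (b / (2 * ρ) + I / 2)) +
        TT (Th (I * (a - b / 2)) (b * (b - 2) / 4) ρ)‖ ≤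
          ε' * ‖TT (Th (I * (a - b / 2)) (b * (b - 2) / 4) ρ)‖ ∧
      ‖TT (Th (I * (a - b / 2)) (b * (b - 2) / 4) ρ)‖ / 3 ≤
        (TT (Th (I * (a - b / 2)) (b * (b - 2) / 4) ρ)).re := by
  obtain ⟨N0, hN0, hgeo⟩ := Th_bounds hθ hε hε1 hρb
  refine ⟨N0 + 41 / ((ε / 25) ^ 3 * (ε' / 4) ^ 2), by positivity, ?_⟩
  intro a c b ρ ha hb hc hab hρ hρρ hnd hN
  have hB : 0 ≤ b * (b - 2) / 4 := by nlinarith
  have him : (I * (a - (b : ℂ) / 2)).im = a.re - b / 2 := by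
    simp [Complex.mul_im]
  set sg : ℂ := I * (a - b / 2) with hsg
  set B : ℝ := b * (b - 2) / 4 with hBB
  have hN1 : N0 ≤ ‖sg‖ * ρ + B := by
    have : 0 ≤ 41 / ((ε / 25) ^ 3 * (ε' / 4) ^ 2) := by positivity
    linarith
  have hN2 : 41 / ((ε / 25) ^ 3 * (ε' / 4) ^ 2) ≤ ‖sg‖ * ρ + B := by linarith
  have hbd := hgeo sg B ρ hρ hρρ (by rw [him]; exact hab) hB hnd hN1
  have hδ : 0 < ε / 25 := by positivity
  have hpos : ∀ τ : ℝ, 0 ≤ τ → 0 < ‖Th sg B (ray ρ τ)‖ := by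
    intro τ hτ
    have hn := ray_norm_pos hρ hτ
    refine lt_of_lt_of_le ?_ (hbd τ hτ).1
    positivity
  have key := cone_lemma (y := yr a c b ρ) (y' := yr' a c b ρ)
    (T := fun τ => TT (Th sg B (ray ρ τ)))
    (T' := fun τ => -I * Th' sg B (ray ρ τ) / TT (Th sg B (ray ρ τ)))
    (ε := ε' / 4) (by positivity) (by linarith)
    (fun t ht => hasDerivAt_yr c ha hρ ht)
    (fun t ht => by
      rw [TT_sq]
      exact hasDerivAt_yr' c ha hc hρ ht)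
    (fun t ht => hasDerivAt_TT (hasDerivAt_Th_ray hρ ht) (hbd t ht).2
      (norm_pos_iff.mp (hpos t ht)))
    (fun t ht => by
      have h1 := TT_re_ge (hbd t ht).2
      have h2 := TT_norm_sq (Th sg B (ray ρ t))
      have h3 := hpos t ht
      have h4 : 0 < ‖TT (Th sg B (ray ρ t))‖ := by
        rcases (norm_nonneg (TT (Th sg B (ray ρ t)))).lt_or_eq with h | h
        · exact h
        · rw [← h] at h2; nlinarith
      exact lt_of_lt_of_le (by positivity) h1)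
    (fun t ht => slow_bound hρ ht hB hδ (by positivity) (hbd t ht).1 (hbd t ht).2 hN2)
    (cone_at_infinity c ha hρ sg B (by positivity))
    0 le_rfl
  obtain ⟨h1, h2⟩ := cone_consequence (by positivity) (by linarith) key
  have hray0 : ray ρ 0 = (ρ : ℂ) := by unfold ray; simp
  simp only [hray0] at h2
  have hJ : J a c ρ ≠ 0 := by
    intro h0
    apply h1
    unfold yr
    rw [hray0, h0, mul_zero]
  refine ⟨hJ, ?_, ?_⟩
  · have hρ' : (ρ : ℂ) ≠ 0 := by exact_mod_cast hρ.ne'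
    have e3 : yr' a c b ρ 0 / yr a c b ρ 0 =
        (1 + I) * (-(J (a + 1) c ρ / J a c ρ) + (b / (2 * ρ) + I / 2)) := by
      rw [div_eq_iff h1]
      unfold yr' yr
      rw [hray0]
      field_simp
    rw [e3] at h2
    refine h2.trans ?_
    apply mul_le_mul_of_nonneg_right _ (norm_nonneg _)
    rw [div_le_iff₀ (by linarith)]
    nlinarith
  · have := TT_re_ge (hbd 0 le_rfl).2
    rwa [hray0] at this

end Vale.Agent.P139.H355
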