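import Vale.Agent.P139.H355.ThX2
import Vale.Agent.P139.KU.Radial
import Vale.Agent.P139.H607.K0

/-!
# Theorem X in radial form: `Φ'/Φ = -k0 + o(κ)` for the free exterior solution
-/

noncomputable section

open Filter Topology Set Complex

namespace Vale.Agent.P139.H355

open Vale.Agent.P139.KU Vale.Agent.P139.H607

/-- the free slow radial solution `r^l J(κ + l/2, (d+l)/2 - κ - 1; r²/4)` -/
def Phi (d l : ℕ) (κ : ℂ) (r : ℝ) : ℂ :=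
  (r : ℂ) ^ l * J (κ + l / 2) ((d + l) / 2 - κ - 1) ((r ^ 2 / 4 : ℝ) : ℂ)

/-- its derivative -/
def Phi1 (d l : ℕ) (κ : ℂ) (r : ℝ) : ℂ :=
  (r : ℂ) ^ l * (l / r * J (κ + l / 2) ((d + l) / 2 - κ - 1) ((r ^ 2 / 4 : ℝ) : ℂ) -
    r / 2 * J (κ + l / 2 + 1) ((d + l) / 2 - κ - 1) ((r ^ 2 / 4 : ℝ) : ℂ))

lemma hasDerivAt_Phi {d l : ℕ} {κ : ℂ} (hκ : 0 < κ.re + l / 2) {r : ℝ} (hr : 0 < r) :
    HasDerivAt (Phi d l κ) (Phi1 d l κ r) r := by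
  have ha : 0 < (κ + (l : ℂ) / 2).re := by
    have : ((l : ℂ) / 2).re = (l : ℝ) / 2 := by
      rw [show ((l : ℂ) / 2) = (((l : ℝ) / 2 : ℝ) : ℂ) by push_cast; ring, Complex.ofReal_re]
    rw [Complex.add_re, this]; exact hκ
  have h1 := hasDerivAt_F ((d + l) / 2 - κ - 1) ha hr
  have h2 : HasDerivAt (fun x : ℝ => (x : ℂ) ^ l) ((l : ℂ) * (r : ℂ) ^ (l - 1)) r := by
    have := (Complex.ofRealCLM.hasDerivAt (x := r)).fun_pow l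
    simpa using this
  have h3 := h2.fun_mul h1
  unfold Phi Phi1
  refine HasDerivAt.congr_deriv (f := fun x : ℝ => (x : ℂ) ^ l * F (κ + l / 2)
    ((d + l) / 2 - κ - 1) x) h3 ?_
  unfold F
  have hr' : (r : ℂ) ≠ 0 := by exact_mod_cast hr.ne'
  rcases Nat.eq_zero_or_pos l with h | h
  · subst h
    simp
  · obtain ⟨k, rfl⟩ : ∃ k, l = k + 1 := ⟨l - 1, by omega⟩
    rw [Nat.add_sub_cancel, pow_succ]
    field_simp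
    ring

/-- size of the parameters -/
def LL (d l : ℕ) : ℝ := (l : ℝ) * ((l : ℝ) + d - 2)

lemma LL_ge {d l : ℕ} (hd : 4 ≤ d) : (l : ℝ) ≤ LL d l := by
  unfold LL
  have hd' : (4 : ℝ) ≤ d := by exact_mod_cast hd
  rcases Nat.eq_zero_or_pos l with h | h
  · subst h; simp
  · have h1 : (1 : ℝ) ≤ l := by exact_mod_cast h
    nlinarith

/-- elementary size bookkeeping, part A: the nondegeneracy and largeness hypotheses of `thX`. -/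
lemma s1_size {ρ ρa ρb c1 C1 C2 C3 K2 nl L B s X dd : ℝ} (hρa : 0 < ρa) (h1 : ρa ≤ ρ) (h2 : ρ ≤ ρb)
    (hc1 : 0 < c1) (hC1 : 0 ≤ C1) (hC3 : C3 = (1 + C1) * ρb + 1 + dd) (hdd : 0 ≤ dd)
    (hK2 : K2 = 1 + nl + L) (hnl : 0 ≤ nl) (hL : 0 ≤ L) (hB : B = L / 4 + dd)
    (hs1 : s ≤ nl + C1) (hs2 : nl - C1 ≤ s)
    (hX : ρ * (c1 ^ 2 * K2) - C2 ≤ X) (hbig : 2 * C2 / (ρa * c1 ^ 2) ≤ K2) :
    min 1 (ρa * c1 ^ 2 / (2 * C3)) * (s * ρ + B) ≤ X ∧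
      min ρa (1 / 4) * K2 - (min ρa (1 / 4) + C1 * ρb) ≤ s * ρ + B ∧
      s * ρ + B ≤ C3 * K2 := by
  have hρ : 0 < ρ := by linarith
  have hρb : 0 < ρb := by linarith
  have hC3p : 0 < C3 := by rw [hC3]; positivity
  have hup : s * ρ + B ≤ C3 * K2 := by
    have a1 : s * ρ ≤ (nl + C1) * ρ := by gcongr
    have a2 : (nl + C1) * ρ ≤ (nl + C1) * ρb := by gcongr
    have a3 : C3 * K2 - ((nl + C1) * ρb + (L / 4 + dd)) =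
        ρb + C1 * ρb * nl + ρb * L + C1 * ρb * L + (1 + nl + L) - L / 4 + dd * (nl + L) := by
      rw [hC3, hK2]; ring
    have a4 : 0 ≤ C1 * ρb * nl := by positivity
    have a5 : 0 ≤ ρb * L := by positivity
    have a6 : 0 ≤ C1 * ρb * L := by positivity
    have a7 : 0 ≤ dd * (nl + L) := by positivity
    rw [hB]
    linarith
  have hK2p : 0 < K2 := by rw [hK2]; linarith
  refine ⟨?_, ?_, hup⟩
  · have b1 : min 1 (ρa * c1 ^ 2 / (2 * C3)) * (s * ρ + B) ≤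
        ρa * c1 ^ 2 / (2 * C3) * (C3 * K2) := by
      have m1 : min 1 (ρa * c1 ^ 2 / (2 * C3)) ≤ ρa * c1 ^ 2 / (2 * C3) := min_le_right _ _
      have m0 : 0 ≤ min 1 (ρa * c1 ^ 2 / (2 * C3)) := le_min (by norm_num) (by positivity)
      calc min 1 (ρa * c1 ^ 2 / (2 * C3)) * (s * ρ + B)
          ≤ min 1 (ρa * c1 ^ 2 / (2 * C3)) * (C3 * K2) := by gcongr
        _ ≤ ρa * c1 ^ 2 / (2 * C3) * (C3 * K2) := by gcongr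
    have b2 : ρa * c1 ^ 2 / (2 * C3) * (C3 * K2) = ρa * (c1 ^ 2 * K2) / 2 := by
      field_simp
    have b3 : ρa * (c1 ^ 2 * K2) ≤ ρ * (c1 ^ 2 * K2) := by gcongr
    have b4 : C2 ≤ ρa * (c1 ^ 2 * K2) / 2 := by
      rw [div_le_iff₀ (by positivity)] at hbig
      nlinarith
    linarith
  · have c0 : min ρa (1 / 4) ≤ ρa := min_le_left _ _
    have c00 : min ρa (1 / 4) ≤ 1 / 4 := min_le_right _ _
    have hm : 0 ≤ min ρa (1 / 4) := le_min hρa.le (by norm_num)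
    set mm := min ρa (1 / 4) with hmm
    have d1 : (nl - C1) * ρ ≤ s * ρ := by gcongr
    have d2 : mm * nl ≤ ρ * nl := by
      apply mul_le_mul_of_nonneg_right _ hnl; linarith
    have d3 : mm * L ≤ 1 / 4 * L := by gcongr
    have d4 : C1 * ρ ≤ C1 * ρb := by gcongr
    rw [hK2, hB]
    nlinarith

/-- pure algebra: radial logarithmic derivative in terms of the Kummer one -/
lemma rad_conv {d l : ℕ} {r b : ℝ} {J0 J1 T e : ℂ} (hr : 0 < r) (hbc : (b : ℂ) = d / 2 + l)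
    (he : e = (1 + I) * (-(J1 / J0) + (b / (2 * ((r ^ 2 / 4 : ℝ) : ℂ)) + I / 2)) + T) :
    l / r - r / 2 * (J1 / J0) =
      (r : ℂ) / 2 * (e / (1 + I)) - (r : ℂ) / 2 * (T / (1 + I)) - (d / 2 / r) - I * r / 4 := by
  have hr' : (r : ℂ) ≠ 0 := by exact_mod_cast hr.ne'
  have hI1 : (1 + I : ℂ) ≠ 0 := by
    intro h
    have := congrArg Complex.re h
    simp at this
  generalize J1 / J0 = X at he ⊢
  have h1 : e / (1 + I) = (-X + (b / (2 * ((r ^ 2 / 4 : ℝ) : ℂ)) + I / 2)) + T / (1 + I) := by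
    rw [he]; field_simp
  rw [h1, hbc]
  generalize T / (1 + I) = Y
  push_cast
  field_simp
  ring

/-- pure algebra: the two forms of the square root -/
lemma em_conv (r : ℝ) (T : ℂ) :
    H607.em * (((Real.sqrt 2 * r / 4 : ℝ) : ℂ) * T) = (r : ℂ) / 2 * (T / (1 + I)) := by
  have hI1 : (1 + I : ℂ) ≠ 0 := by
    intro h
    have := congrArg Complex.re h
    simp at this
  have hs2' : ((Real.sqrt 2 : ℝ) : ℂ) ^ 2 = 2 := by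
    rw [← Complex.ofReal_pow, Real.sq_sqrt (by norm_num)]; norm_num
  have hI2 : (I : ℂ) ^ 2 = -1 := Complex.I_sq
  unfold H607.em
  rw [mul_div_assoc', eq_div_iff hI1]
  push_cast
  linear_combination ((r : ℂ) * T * (1 - I ^ 2) / 8) * hs2' - (r : ℂ) * T / 4 * hI2

lemma em_conv_sq {r : ℝ} {T Θ : ℂ} (hT : T ^ 2 = -2 * I * Θ) :
    (H607.em * (((Real.sqrt 2 * r / 4 : ℝ) : ℂ) * T)) ^ 2 = -(r : ℂ) ^ 2 / 4 * Θ := by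
  have hs2' : ((Real.sqrt 2 : ℝ) : ℂ) ^ 2 = 2 := by
    rw [← Complex.ofReal_pow, Real.sq_sqrt (by norm_num)]; norm_num
  have hI2 : (I : ℂ) ^ 2 = -1 := Complex.I_sq
  rw [mul_pow, H607.em_sq, mul_pow, hT]
  push_cast
  linear_combination (I ^ 2 * (r : ℂ) ^ 2 * Θ / 8) * hs2' + (r : ℂ) ^ 2 * Θ / 4 * hI2

/-- distance of the two square roots -/
lemma s1_diff {d : ℕ} {lam sg T Θ : ℂ} {a0 w r ra rb b L dd C1 C5 c1 kp : ℝ}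
    (hlam : 0 ≤ lam.re) (hra : 0 < ra) (hr1 : ra ≤ r) (hr2 : r ≤ rb) (hc1 : 0 < c1)
    (hdd : 0 ≤ dd) (hBval : b * (b - 2) / 4 = L / 4 + dd)
    (hsg : sg = I * lam + I * ((a0 : ℂ) - I * w - d / 4))
    (hrest : ‖I * ((a0 : ℂ) - I * w - d / 4)‖ ≤ C1)
    (hC5 : C5 = 4 * dd / ra ^ 2 + C1 + rb ^ 2 / 4 / 4)
    (hkp : 1 ≤ kp)
    (hnd : c1 ^ 2 * kp ^ 2 ≤ ‖((L / r ^ 2 : ℝ) : ℂ) - I * lam‖)
    (hΘ : Θ = Th sg (b * (b - 2) / 4) ((r ^ 2 / 4 : ℝ) : ℂ)) (hTsq : T ^ 2 = -2 * I * Θ)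
    (hTre : 0 ≤ T.re) :
    ‖(r : ℂ) / 2 * (T / (1 + I)) - k0 lam (L / r ^ 2)‖ ≤ 2 * C5 / c1 := by
  have hr : 0 < r := by linarith
  have hr' : (r : ℂ) ≠ 0 := by exact_mod_cast hr.ne'
  obtain ⟨p, hp⟩ : ∃ x : ℂ, x = ((Real.sqrt 2 * r / 4 : ℝ) : ℂ) * T := ⟨_, rfl⟩
  have hp0 : 0 ≤ p.re := by
    rw [hp, Complex.re_ofReal_mul]
    exact mul_nonneg (by positivity) hTre
  have hemp : H607.em * p = (r : ℂ) / 2 * (T / (1 + I)) := by rw [hp]; exact em_conv r T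
  have hempsq : (H607.em * p) ^ 2 = -(r : ℂ) ^ 2 / 4 * Θ := by rw [hp]; exact em_conv_sq hTsq
  have hr2' : r ^ 2 / 4 / 4 ≤ rb ^ 2 / 4 / 4 := by gcongr
  have hdiff : (H607.em * p) ^ 2 - (((L / r ^ 2 : ℝ) : ℂ) - I * lam) =
      ((4 * dd / r ^ 2 : ℝ) : ℂ) - I * ((a0 : ℂ) - I * w - d / 4) - ((r ^ 2 / 4 / 4 : ℝ) : ℂ) := by
    rw [hempsq, hΘ]
    unfold Th
    rw [hsg, hBval]
    push_cast
    field_simp
    ring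
  have hstab := k0_stable hlam (s := L / r ^ 2) (C := C5) hp0 (by
    rw [hdiff]
    refine (norm_sub_le _ _).trans ?_
    have h1 := norm_sub_le ((4 * dd / r ^ 2 : ℝ) : ℂ) (I * ((a0 : ℂ) - I * w - d / 4))
    have h2 : ‖((4 * dd / r ^ 2 : ℝ) : ℂ)‖ ≤ 4 * dd / ra ^ 2 := by
      rw [Complex.norm_real, Real.norm_eq_abs, abs_of_nonneg (by positivity)]
      gcongr
    have h3 : ‖((r ^ 2 / 4 / 4 : ℝ) : ℂ)‖ ≤ rb ^ 2 / 4 / 4 := by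
      rw [Complex.norm_real, Real.norm_eq_abs, abs_of_nonneg (by positivity)]
      exact hr2'
    rw [hC5]; linarith)
  have hk0 : c1 * kp ≤ ‖k0 lam (L / r ^ 2)‖ := by
    have h1 := k0_norm_sq lam (L / r ^ 2)
    have h2 : (c1 * kp) ^ 2 ≤ ‖k0 lam (L / r ^ 2)‖ ^ 2 := by
      rw [h1, mul_pow]; exact hnd
    exact le_of_sq_le_sq h2 (norm_nonneg _)
  have hk0c : c1 ≤ ‖k0 lam (L / r ^ 2)‖ := by nlinarith
  rw [← hemp, le_div_iff₀ hc1]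
  calc ‖H607.em * p - k0 lam (L / r ^ 2)‖ * c1
      ≤ ‖H607.em * p - k0 lam (L / r ^ 2)‖ * ‖k0 lam (L / r ^ 2)‖ := by gcongr
    _ ≤ 2 * C5 := hstab

/-- size of the square root -/
lemma s1_sizeT {sg T Θ : ℂ} {r ra rb b C3 C4 kp : ℝ}
    (hra : 0 < ra) (hr1 : ra ≤ r) (hr2 : r ≤ rb)
    (hB0 : 0 ≤ b * (b - 2) / 4)
    (hC3 : 0 ≤ C3) (hC4 : C4 = rb ^ 2 / 4 / 4 + C3 / (ra ^ 2 / 4)) (hC40 : 0 < C4)
    (hkp : 1 ≤ kp) (q3 : ‖sg‖ * (r ^ 2 / 4) + b * (b - 2) / 4 ≤ C3 * kp ^ 2)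
    (hΘ : Θ = Th sg (b * (b - 2) / 4) ((r ^ 2 / 4 : ℝ) : ℂ)) (hTsq : T ^ 2 = -2 * I * Θ) :
    ‖(r : ℂ) / 2 * (T / (1 + I))‖ ≤ Real.sqrt C4 * kp := by
  have hr : 0 < r := by linarith
  have hr' : (r : ℂ) ≠ 0 := by exact_mod_cast hr.ne'
  rw [← em_conv r T]
  have hr2' : r ^ 2 / 4 / 4 ≤ rb ^ 2 / 4 / 4 := by gcongr
  apply le_of_sq_le_sq _ (by positivity)
  rw [mul_pow, Real.sq_sqrt hC40.le, ← norm_pow, em_conv_sq hTsq]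
  have e1 : -(r : ℂ) ^ 2 / 4 * Θ = -(((r ^ 2 / 4 / 4 : ℝ) : ℂ) + (sg -
      ((b * (b - 2) / 4 / (r ^ 2 / 4) : ℝ) : ℂ))) := by
    rw [hΘ]; unfold Th; push_cast; field_simp; ring
  rw [e1, norm_neg]
  have h1 := norm_add_le ((r ^ 2 / 4 / 4 : ℝ) : ℂ) (sg - ((b * (b - 2) / 4 / (r ^ 2 / 4) : ℝ) : ℂ))
  have h2 := norm_sub_le sg ((b * (b - 2) / 4 / (r ^ 2 / 4) : ℝ) : ℂ)
  have h3 : ‖((r ^ 2 / 4 / 4 : ℝ) : ℂ)‖ ≤ rb ^ 2 / 4 / 4 := by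
    rw [Complex.norm_real, Real.norm_eq_abs, abs_of_nonneg (by positivity)]
    exact hr2'
  have h4 : ‖((b * (b - 2) / 4 / (r ^ 2 / 4) : ℝ) : ℂ)‖ = b * (b - 2) / 4 / (r ^ 2 / 4) := by
    rw [Complex.norm_real, Real.norm_eq_abs, abs_of_nonneg (by positivity)]
  have h5 : ‖sg‖ + b * (b - 2) / 4 / (r ^ 2 / 4) =
      (‖sg‖ * (r ^ 2 / 4) + b * (b - 2) / 4) / (r ^ 2 / 4) := by field_simp
  have h6 : (‖sg‖ * (r ^ 2 / 4) + b * (b - 2) / 4) / (r ^ 2 / 4) ≤ C3 * kp ^ 2 / (ra ^ 2 / 4) := by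
    have : 0 ≤ C3 * kp ^ 2 := by positivity
    calc (‖sg‖ * (r ^ 2 / 4) + b * (b - 2) / 4) / (r ^ 2 / 4) ≤ C3 * kp ^ 2 / (r ^ 2 / 4) := by
          gcongr
      _ ≤ C3 * kp ^ 2 / (ra ^ 2 / 4) := by gcongr
  have hk2 : 1 ≤ kp ^ 2 := by nlinarith
  have h7 : rb ^ 2 / 4 / 4 ≤ rb ^ 2 / 4 / 4 * kp ^ 2 := by
    have : 0 ≤ rb ^ 2 / 4 / 4 := by positivity
    nlinarith
  have h8 : C4 * kp ^ 2 = rb ^ 2 / 4 / 4 * kp ^ 2 + C3 * kp ^ 2 / (ra ^ 2 / 4) := by rw [hC4]; ring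
  rw [h8]
  linarith

/-- bookkeeping, part B: from the Kummer form to the radial form. -/
lemma s1_conv {d l : ℕ} {lam : ℂ} {a0 w r ra rb b L dd C1 C3 C4 C5 c1 kp eps ε' : ℝ} {J0 J1 : ℂ}
    (hlam : 0 ≤ lam.re) (hra : 0 < ra) (hr1 : ra ≤ r) (hr2 : r ≤ rb) (hc1 : 0 < c1)
    (hdd : 0 ≤ dd) (hL : 0 ≤ L)
    (hbc : (b : ℂ) = d / 2 + l) (hBval : b * (b - 2) / 4 = L / 4 + dd)
    {sg : ℂ} (hsg : sg = I * lam + I * ((a0 : ℂ) - I * w - d / 4))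
    (hrest : ‖I * ((a0 : ℂ) - I * w - d / 4)‖ ≤ C1)
    (hC3 : 0 ≤ C3) (hC4 : C4 = rb ^ 2 / 4 / 4 + C3 / (ra ^ 2 / 4))
    (hC5 : C5 = 4 * dd / ra ^ 2 + C1 + rb ^ 2 / 4 / 4)
    (hkp : 1 ≤ kp) (q3 : ‖sg‖ * (r ^ 2 / 4) + b * (b - 2) / 4 ≤ C3 * kp ^ 2)
    (hnd : c1 ^ 2 * kp ^ 2 ≤ ‖((L / r ^ 2 : ℝ) : ℂ) - I * lam‖)
    (heps : 0 < eps) (hε' : ε' ≤ eps / (2 * Real.sqrt C4)) (hC40 : 0 < C4)
    (hq : ‖(1 + I) * (-(J1 / J0) + (b / (2 * ((r ^ 2 / 4 : ℝ) : ℂ)) + I / 2)) +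
      TT (Th sg (b * (b - 2) / 4) ((r ^ 2 / 4 : ℝ) : ℂ))‖ ≤
      ε' * ‖TT (Th sg (b * (b - 2) / 4) ((r ^ 2 / 4 : ℝ) : ℂ))‖)
    (hC6k : d / 2 / ra + rb / 4 + 2 * C5 / c1 ≤ eps / 2 * kp) :
    ‖l / r - r / 2 * (J1 / J0) + k0 lam (L / r ^ 2)‖ ≤ eps * kp := by
  have hr : 0 < r := by linarith
  obtain ⟨Θ, hΘ⟩ : ∃ x : ℂ, x = Th sg (b * (b - 2) / 4) ((r ^ 2 / 4 : ℝ) : ℂ) := ⟨_, rfl⟩
  obtain ⟨T, hT⟩ : ∃ x : ℂ, x = TT Θ := ⟨_, rfl⟩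
  rw [← hΘ, ← hT] at hq
  have hTsq : T ^ 2 = -2 * I * Θ := by rw [hT]; exact TT_sq Θ
  have hTre : 0 ≤ T.re := by rw [hT]; exact TT_re_nonneg Θ
  obtain ⟨e, he⟩ : ∃ x : ℂ, x = (1 + I) * (-(J1 / J0) +
    (b / (2 * ((r ^ 2 / 4 : ℝ) : ℂ)) + I / 2)) + T := ⟨_, rfl⟩
  rw [← he] at hq
  have hI1 : (1 + I : ℂ) ≠ 0 := by
    intro h
    have := congrArg Complex.re h
    simp at this
  rw [rad_conv (d := d) (l := l) hr hbc he]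
  have hdk := s1_diff hlam hra hr1 hr2 hc1 hdd hBval hsg hrest hC5 hkp hnd hΘ hTsq hTre
  have hB0 : 0 ≤ b * (b - 2) / 4 := by rw [hBval]; positivity
  have hSq := s1_sizeT hra hr1 hr2 hB0 hC3 hC4 hC40 hkp q3 hΘ hTsq
  have hsC4 : 0 < Real.sqrt C4 := Real.sqrt_pos.mpr hC40
  have he1 : ‖(r : ℂ) / 2 * (e / (1 + I))‖ ≤ ε' * ‖(r : ℂ) / 2 * (T / (1 + I))‖ := by
    rw [norm_mul, norm_mul, norm_div e, norm_div T]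
    have h0 : 0 < ‖(1 + I : ℂ)‖ := norm_pos_iff.mpr hI1
    calc ‖(r : ℂ) / 2‖ * (‖e‖ / ‖(1 + I : ℂ)‖) ≤ ‖(r : ℂ) / 2‖ * (ε' * ‖T‖ / ‖(1 + I : ℂ)‖) := by
          gcongr
      _ = ε' * (‖(r : ℂ) / 2‖ * (‖T‖ / ‖(1 + I : ℂ)‖)) := by ring
  have he2 : ε' * ‖(r : ℂ) / 2 * (T / (1 + I))‖ ≤ eps / 2 * kp := by
    calc ε' * ‖(r : ℂ) / 2 * (T / (1 + I))‖ ≤ eps / (2 * Real.sqrt C4) * (Real.sqrt C4 * kp) := by
          gcongr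
      _ = eps / 2 * kp := by field_simp
  generalize (r : ℂ) / 2 * (e / (1 + I)) = X1 at he1 ⊢
  generalize (r : ℂ) / 2 * (T / (1 + I)) = X2 at hdk he1 he2 ⊢
  generalize k0 lam (L / r ^ 2) = X3 at hdk ⊢
  have hn1 : ‖(d : ℂ) / 2 / r‖ ≤ d / 2 / ra := by
    rw [norm_div, norm_div, Complex.norm_real, Real.norm_eq_abs, abs_of_pos hr]
    simp only [Complex.norm_natCast, Complex.norm_ofNat]
    gcongr
  have hn2 : ‖I * (r : ℂ) / 4‖ ≤ rb / 4 := by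
    rw [norm_div, norm_mul, Complex.norm_I, one_mul, Complex.norm_real, Real.norm_eq_abs,
      abs_of_pos hr]
    simp only [Complex.norm_ofNat]
    gcongr
  generalize (d : ℂ) / 2 / r = X4 at hn1 ⊢
  generalize I * (r : ℂ) / 4 = X5 at hn2 ⊢
  have hfin : X1 - X2 - X4 - X5 + X3 = X1 - (X2 - X3) - X4 - X5 := by ring
  rw [hfin]
  have t1 := norm_sub_le (X1 - (X2 - X3) - X4) X5
  have t2 := norm_sub_le (X1 - (X2 - X3)) X4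
  have t3 := norm_sub_le X1 (X2 - X3)
  linarith

/-- **Theorem X in the form used by [S1]** (helper607's #1374). -/
theorem thX_S1 {d : ℕ} (hd : 4 ≤ d) {ra rb W0 eps c1 : ℝ} (hra : 0 < ra) (hrab : ra ≤ rb)
    (hW0 : 0 ≤ W0) (heps : 0 < eps) (hc1 : 0 < c1) :
    ∃ N : ℝ, 0 < N ∧ ∀ (l : ℕ) (lam : ℂ) (a0 w r : ℝ), 0 ≤ lam.re → 0 < a0 → a0 ≤ 1 → |w| ≤ W0 →
      ra ≤ r → r ≤ rb → N ≤ ‖lam‖ + l →
      c1 ^ 2 * (1 + ‖lam‖ + LL d l) ≤ ‖((LL d l / r ^ 2 : ℝ) : ℂ) - I * lam‖ →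
      Phi d l (lam + a0 - I * w) r ≠ 0 ∧
      ‖Phi1 d l (lam + a0 - I * w) r / Phi d l (lam + a0 - I * w) r +
        k0 lam (LL d l / r ^ 2)‖ ≤ eps * Real.sqrt (1 + ‖lam‖ + LL d l) := by
  have hrb : 0 < rb := by linarith
  have hdR : (4 : ℝ) ≤ d := by exact_mod_cast hd
  obtain ⟨C1, hC1⟩ : ∃ x : ℝ, x = 1 + W0 + d / 4 := ⟨_, rfl⟩
  obtain ⟨dd, hdd⟩ : ∃ x : ℝ, x = (d : ℝ) * (d - 4) / 16 := ⟨_, rfl⟩
  have hρa0 : 0 < ra ^ 2 / 4 := by positivity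
  have hρb0 : 0 < rb ^ 2 / 4 := by positivity
  have hC10 : 0 < C1 := by rw [hC1]; positivity
  have hdd0 : 0 ≤ dd := by rw [hdd]; nlinarith
  obtain ⟨C2, hC2⟩ : ∃ x : ℝ, x = C1 * (rb ^ 2 / 4) + dd := ⟨_, rfl⟩
  obtain ⟨C3, hC3⟩ : ∃ x : ℝ, x = (1 + C1) * (rb ^ 2 / 4) + 1 + dd := ⟨_, rfl⟩
  obtain ⟨C4, hC4⟩ : ∃ x : ℝ, x = rb ^ 2 / 4 / 4 + C3 / (ra ^ 2 / 4) := ⟨_, rfl⟩
  obtain ⟨C5, hC5⟩ : ∃ x : ℝ, x = 4 * dd / ra ^ 2 + C1 + rb ^ 2 / 4 / 4 := ⟨_, rfl⟩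
  obtain ⟨C6, hC6⟩ : ∃ x : ℝ, x = d / 2 / ra + rb / 4 + 2 * C5 / c1 := ⟨_, rfl⟩
  have hC20 : 0 < C2 := by rw [hC2]; positivity
  have hC30 : 0 < C3 := by rw [hC3]; positivity
  have hC40 : 0 < C4 := by rw [hC4]; positivity
  have hC50 : 0 < C5 := by rw [hC5]; positivity
  have hC60 : 0 < C6 := by rw [hC6]; positivity
  obtain ⟨ε, hε⟩ : ∃ x : ℝ, x = min 1 (ra ^ 2 / 4 * c1 ^ 2 / (2 * C3)) := ⟨_, rfl⟩
  have hε0 : 0 < ε := by rw [hε]; exact lt_min (by norm_num) (by positivity)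
  have hε1 : ε ≤ 1 := by rw [hε]; exact min_le_left _ _
  obtain ⟨ε', hε'⟩ : ∃ x : ℝ, x = min 1 (eps / (2 * Real.sqrt C4)) := ⟨_, rfl⟩
  have hsC4 : 0 < Real.sqrt C4 := Real.sqrt_pos.mpr hC40
  have hε'0 : 0 < ε' := by rw [hε']; exact lt_min (by norm_num) (by positivity)
  have hε'1 : ε' ≤ 1 := by rw [hε']; exact min_le_left _ _
  have hε'2 : ε' ≤ eps / (2 * Real.sqrt C4) := by rw [hε']; exact min_le_right _ _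
  obtain ⟨N0, hN0, hX⟩ := thX (θ₀ := (d : ℝ) / 4) (by positivity) hρb0 hε0 hε1 hε'0 hε'1
  obtain ⟨mm, hmm⟩ : ∃ x : ℝ, x = min (ra ^ 2 / 4) (1 / 4) := ⟨_, rfl⟩
  have hmm0 : 0 < mm := by rw [hmm]; exact lt_min hρa0 (by norm_num)
  refine ⟨(N0 + mm + C1 * (rb ^ 2 / 4)) / mm + 2 * C2 / (ra ^ 2 / 4 * c1 ^ 2) +
    (2 * C6 / eps) ^ 2 + 1, by positivity, ?_⟩
  intro l lam a0 w r hlam ha0 ha01 hw hr1 hr2 hN hnd
  have hr : 0 < r := by linarith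
  have hr' : (r : ℂ) ≠ 0 := by exact_mod_cast hr.ne'
  obtain ⟨L, hL⟩ : ∃ x : ℝ, x = LL d l := ⟨_, rfl⟩
  have hLl : (l : ℝ) ≤ L := by rw [hL]; exact LL_ge hd
  have hl0 : (0 : ℝ) ≤ l := Nat.cast_nonneg l
  have hL0 : 0 ≤ L := by linarith
  rw [← hL] at hnd ⊢
  obtain ⟨K2, hK2⟩ : ∃ x : ℝ, x = 1 + ‖lam‖ + L := ⟨_, rfl⟩
  rw [← hK2] at hnd ⊢
  have hnl0 := norm_nonneg lam
  have hK2N : (N0 + mm + C1 * (rb ^ 2 / 4)) / mm + 2 * C2 / (ra ^ 2 / 4 * c1 ^ 2) +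
      (2 * C6 / eps) ^ 2 + 1 ≤ K2 := by
    rw [hK2]; linarith
  have hK21 : 1 ≤ K2 := by rw [hK2]; linarith
  have p1 : 0 ≤ (N0 + mm + C1 * (rb ^ 2 / 4)) / mm := by positivity
  have p2 : 0 ≤ 2 * C2 / (ra ^ 2 / 4 * c1 ^ 2) := by positivity
  have p3 : 0 ≤ (2 * C6 / eps) ^ 2 := by positivity
  -- parameters
  obtain ⟨κ, hκ⟩ : ∃ x : ℂ, x = lam + a0 - I * w := ⟨_, rfl⟩
  rw [← hκ]
  have hκre : κ.re = lam.re + a0 := by rw [hκ]; simp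
  obtain ⟨a, ha⟩ : ∃ x : ℂ, x = κ + l / 2 := ⟨_, rfl⟩
  obtain ⟨c, hc⟩ : ∃ x : ℂ, x = (d + l) / 2 - κ - 1 := ⟨_, rfl⟩
  obtain ⟨b, hb⟩ : ∃ x : ℝ, x = (d : ℝ) / 2 + l := ⟨_, rfl⟩
  have hρ0 : 0 < r ^ 2 / 4 := by positivity
  have hρ1 : ra ^ 2 / 4 ≤ r ^ 2 / 4 := by gcongr
  have hρ2 : r ^ 2 / 4 ≤ rb ^ 2 / 4 := by gcongr
  have hl2 : ((l : ℂ) / 2).re = (l : ℝ) / 2 := by
    rw [show ((l : ℂ) / 2) = (((l : ℝ) / 2 : ℝ) : ℂ) by push_cast; ring, Complex.ofReal_re]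
  have hare : a.re = lam.re + a0 + l / 2 := by
    rw [ha, Complex.add_re, hκre, hl2]
  have ha_pos : 0 < a.re := by rw [hare]; linarith
  have hb2 : 2 ≤ b := by rw [hb]; linarith
  have hbc : (b : ℂ) = d / 2 + l := by rw [hb]; push_cast; ring
  have hacb : a + c + 1 = b := by rw [hbc, ha, hc]; ring
  have hab : -((d : ℝ) / 4) ≤ a.re - b / 2 := by rw [hare, hb]; linarith
  -- sg and B
  have hsg : I * (a - (b : ℂ) / 2) = I * lam + I * ((a0 : ℂ) - I * w - d / 4) := by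
    rw [hbc, ha, hκ]; ring
  have hBval : b * (b - 2) / 4 = L / 4 + dd := by
    rw [hb, hdd, hL]; unfold LL; ring
  have hrest : ‖I * ((a0 : ℂ) - I * w - d / 4)‖ ≤ C1 := by
    rw [norm_mul, Complex.norm_I, one_mul]
    have e0 := norm_sub_le ((a0 : ℂ) - I * w) ((d : ℂ) / 4)
    have e00 := norm_sub_le (a0 : ℂ) (I * w)
    have e1 : ‖(a0 : ℂ)‖ ≤ 1 := by
      rw [Complex.norm_real, Real.norm_eq_abs, abs_of_pos ha0]; exact ha01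
    have e2 : ‖I * (w : ℂ)‖ ≤ W0 := by
      rw [norm_mul, Complex.norm_I, one_mul, Complex.norm_real]; exact hw
    have e3 : ‖(d : ℂ) / 4‖ = (d : ℝ) / 4 := by
      rw [norm_div]; simp
    rw [hC1]; linarith
  have hs1 : ‖I * (a - (b : ℂ) / 2)‖ ≤ ‖lam‖ + C1 := by
    rw [hsg]
    refine (norm_add_le _ _).trans ?_
    rw [norm_mul I lam, Complex.norm_I, one_mul]
    linarith
  have hs2 : ‖lam‖ - C1 ≤ ‖I * (a - (b : ℂ) / 2)‖ := by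
    have h1 : ‖I * lam‖ ≤ ‖I * (a - (b : ℂ) / 2)‖ + ‖I * ((a0 : ℂ) - I * w - d / 4)‖ := by
      have e : I * lam = I * (a - (b : ℂ) / 2) - I * ((a0 : ℂ) - I * w - d / 4) := by
        rw [hsg]; ring
      rw [e]; exact norm_sub_le _ _
    rw [norm_mul I lam, Complex.norm_I, one_mul] at h1
    linarith
  have hXl : r ^ 2 / 4 * (c1 ^ 2 * K2) - C2 ≤
      ‖I * (a - (b : ℂ) / 2) * ((r ^ 2 / 4 : ℝ) : ℂ) - ((b * (b - 2) / 4 : ℝ) : ℂ)‖ := by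
    have e : -(((r ^ 2 / 4 : ℝ) : ℂ) * (((L / r ^ 2 : ℝ) : ℂ) - I * lam)) =
        (I * (a - (b : ℂ) / 2) * ((r ^ 2 / 4 : ℝ) : ℂ) - ((b * (b - 2) / 4 : ℝ) : ℂ)) -
        (I * ((a0 : ℂ) - I * w - d / 4) * ((r ^ 2 / 4 : ℝ) : ℂ) - (dd : ℂ)) := by
      rw [hsg, hBval]; push_cast; field_simp; ring
    have h1 := norm_sub_le (I * (a - (b : ℂ) / 2) * ((r ^ 2 / 4 : ℝ) : ℂ) -
      ((b * (b - 2) / 4 : ℝ) : ℂ))
      (I * ((a0 : ℂ) - I * w - d / 4) * ((r ^ 2 / 4 : ℝ) : ℂ) - (dd : ℂ))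
    rw [← e, norm_neg, norm_mul, Complex.norm_real, Real.norm_eq_abs, abs_of_pos hρ0] at h1
    have h2 : ‖I * ((a0 : ℂ) - I * w - d / 4) * ((r ^ 2 / 4 : ℝ) : ℂ) - (dd : ℂ)‖ ≤ C2 := by
      refine (norm_sub_le _ _).trans ?_
      rw [norm_mul, Complex.norm_real, Complex.norm_real, Real.norm_eq_abs, Real.norm_eq_abs,
        abs_of_pos hρ0, abs_of_nonneg hdd0, hC2]
      gcongr
    have h3 : r ^ 2 / 4 * (c1 ^ 2 * K2) ≤ r ^ 2 / 4 * ‖((L / r ^ 2 : ℝ) : ℂ) - I * lam‖ := by gcongr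
    linarith
  obtain ⟨q1, q2, q3⟩ := s1_size (K2 := K2) (nl := ‖lam‖) (L := L) (B := b * (b - 2) / 4)
    (s := ‖I * (a - (b : ℂ) / 2)‖) hρa0 hρ1 hρ2 hc1 hC10.le hC3 hdd0 hK2 hnl0 hL0 hBval hs1 hs2 hXl
    (by linarith)
  rw [← hε] at q1
  rw [← hmm] at q2
  have hNN : N0 ≤ ‖I * (a - (b : ℂ) / 2)‖ * (r ^ 2 / 4) + b * (b - 2) / 4 := by
    have h1 : (N0 + mm + C1 * (rb ^ 2 / 4)) / mm ≤ K2 := by linarith
    rw [div_le_iff₀ hmm0] at h1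
    linarith
  obtain ⟨hJ, hq, -⟩ := hX a c b (r ^ 2 / 4) ha_pos hb2 hacb hab hρ0 hρ2 q1 hNN
  have hPhi : Phi d l κ r = (r : ℂ) ^ l * J a c ((r ^ 2 / 4 : ℝ) : ℂ) := by
    unfold Phi; rw [ha, hc]
  have hPhi1 : Phi1 d l κ r = (r : ℂ) ^ l * (l / r * J a c ((r ^ 2 / 4 : ℝ) : ℂ) -
      r / 2 * J (a + 1) c ((r ^ 2 / 4 : ℝ) : ℂ)) := by
    unfold Phi1; rw [ha, hc]
  have hrl : (r : ℂ) ^ l ≠ 0 := pow_ne_zero _ hr'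
  refine ⟨by rw [hPhi]; exact mul_ne_zero hrl hJ, ?_⟩
  have hquot : Phi1 d l κ r / Phi d l κ r = l / r - r / 2 *
      (J (a + 1) c ((r ^ 2 / 4 : ℝ) : ℂ) / J a c ((r ^ 2 / 4 : ℝ) : ℂ)) := by
    rw [hPhi, hPhi1]
    field_simp
  rw [hquot]
  have hKs : Real.sqrt K2 ^ 2 = K2 := Real.sq_sqrt (by linarith)
  have hKs1 : 1 ≤ Real.sqrt K2 := by
    rw [show (1 : ℝ) = Real.sqrt 1 by simp]; exact Real.sqrt_le_sqrt hK21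
  have hC6k : C6 ≤ eps / 2 * Real.sqrt K2 := by
    have h1 : (2 * C6 / eps) ^ 2 ≤ Real.sqrt K2 ^ 2 := by rw [hKs]; linarith
    have h2 : 2 * C6 / eps ≤ Real.sqrt K2 := le_of_sq_le_sq h1 (by linarith)
    rw [div_le_iff₀ heps] at h2
    linarith
  exact s1_conv hlam hra hr1 hr2 hc1 hdd0 hL0 hbc hBval hsg hrest hC30.le hC4 hC5 hKs1
    (by rw [hKs]; exact q3) (by rw [hKs]; exact hnd) heps hε'2 hC40 hq
    (by rw [← hC6]; exact hC6k)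

end Vale.Agent.P139.H355
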