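import Vale.Agent.P139.H355.ThXS1

/-!
# Theorem X for both components with one threshold
-/

noncomputable section

open Filter Topology Set Complex

namespace Vale.Agent.P139.H355

open Vale.Agent.P139.KU Vale.Agent.P139.H607

/-- Theorem X for the first component (`Phi`, root `k0`) and for the conjugate component
(`conj Phi(conj lam + a0 - i w)`, root `k0s`), with one threshold `N`. -/
theorem thX_S1_both {d : ℕ} (hd : 4 ≤ d) {ra rb W0 eps c1 : ℝ} (hra : 0 < ra) (hrab : ra ≤ rb)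
    (hW0 : 0 ≤ W0) (heps : 0 < eps) (hc1 : 0 < c1) :
    ∃ N : ℝ, 0 < N ∧ ∀ (l : ℕ) (lam : ℂ) (a0 w r : ℝ), 0 ≤ lam.re → 0 < a0 → a0 ≤ 1 → |w| ≤ W0 →
      ra ≤ r → r ≤ rb → N ≤ ‖lam‖ + l →
      (c1 ^ 2 * (1 + ‖lam‖ + LL d l) ≤ ‖((LL d l / r ^ 2 : ℝ) : ℂ) - I * lam‖ →
        Phi d l (lam + a0 - I * w) r ≠ 0 ∧
        ‖Phi1 d l (lam + a0 - I * w) r / Phi d l (lam + a0 - I * w) r +
          k0 lam (LL d l / r ^ 2)‖ ≤ eps * Real.sqrt (1 + ‖lam‖ + LL d l)) ∧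
      (c1 ^ 2 * (1 + ‖lam‖ + LL d l) ≤ ‖((LL d l / r ^ 2 : ℝ) : ℂ) + I * lam‖ →
        starRingEnd ℂ (Phi d l (starRingEnd ℂ lam + a0 - I * w) r) ≠ 0 ∧
        ‖starRingEnd ℂ (Phi1 d l (starRingEnd ℂ lam + a0 - I * w) r) /
            starRingEnd ℂ (Phi d l (starRingEnd ℂ lam + a0 - I * w) r) +
          k0s lam (LL d l / r ^ 2)‖ ≤ eps * Real.sqrt (1 + ‖lam‖ + LL d l)) := by
  obtain ⟨N, hN, h⟩ := thX_S1 hd hra hrab hW0 heps hc1
  refine ⟨N, hN, fun l lam a0 w r h0 h1 h2 h3 h4 h5 h6 => ⟨fun h7 => h l lam a0 w r h0 h1 h2 h3 h4 h5 h6 h7,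
    fun h7 => ?_⟩⟩
  have e1 : ‖starRingEnd ℂ lam‖ = ‖lam‖ := RCLike.norm_conj lam
  have e2 : ((LL d l / r ^ 2 : ℝ) : ℂ) - I * starRingEnd ℂ lam =
      starRingEnd ℂ (((LL d l / r ^ 2 : ℝ) : ℂ) + I * lam) := by
    rw [map_add, map_mul, Complex.conj_ofReal, Complex.conj_I]; ring
  obtain ⟨g1, g2⟩ := h l (starRingEnd ℂ lam) a0 w r (by simpa using h0) h1 h2 h3 h4 h5
    (by rw [e1]; exact h6) (by rw [e1, e2, RCLike.norm_conj]; exact h7)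
  refine ⟨by simpa using g1, ?_⟩
  rw [e1] at g2
  unfold k0s
  rw [← map_div₀, ← map_add, RCLike.norm_conj]
  exact g2

end Vale.Agent.P139.H355
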