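import Vale.Agent.P139.H355.ThXS1
import Vale.Agent.P139.H607.S1Spec

/-!
# `ThXS d` (Theorem X in the form of `H607/S1Spec.lean`) for all `d ≥ 4`
-/

noncomputable section

open Filter Topology Set Complex

namespace Vale.Agent.P139.H355

open Vale.Agent.P139.KU Vale.Agent.P139.H607 Vale.Agent.P139.H498

lemma Sl_eq_Phi (d l : ℕ) (w a : ℝ) (lam : ℂ) :
    H607.Sl d l w a lam = H355.Phi d l (lam + a - I * w) := by
  funext r
  unfold H607.Sl H355.Phi
  rw [KU.Phi_apply]
  have e : (d : ℂ) / 2 + l / 2 - (lam + a - I * w) - 1 = (d + l) / 2 - (lam + a - I * w) - 1 := by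
    ring
  rw [e]

/-- **Theorem X** for [S1]. -/
theorem thXS {d : ℕ} (hd : 4 ≤ d) : ThXS d := by
  intro ra rb w0 c1 ε hra hrab hc1 hε
  obtain ⟨N, hN, h⟩ := thX_S1 hd hra hrab (W0 := max w0 0) (le_max_right _ _) hε
    (Real.sqrt_pos.mpr hc1)
  have hdR : (4 : ℝ) ≤ d := by exact_mod_cast hd
  refine ⟨1 + N + N * (N + d - 2), ?_⟩
  intro l lam w a r hw ha ha1 hlam hr1 hr2 hNk hnd
  have hr : 0 < r := by linarith
  have hl0 : (0 : ℝ) ≤ l := Nat.cast_nonneg l
  have hL : gL d l = LL d l := rfl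
  have hk : kap2 d l lam = 1 + ‖lam‖ + LL d l := rfl
  rw [hk, hL] at hnd ⊢
  rw [hk] at hNk
  have hNl : N ≤ ‖lam‖ + l := by
    by_contra hcon
    push Not at hcon
    have h1 : ‖lam‖ < N := by linarith
    have h2 : (l : ℝ) < N := by linarith [norm_nonneg lam]
    have h3 : LL d l ≤ N * (N + d - 2) := by
      unfold LL
      apply mul_le_mul h2.le (by linarith) (by linarith) hN.le
    linarith
  obtain ⟨g1, g2⟩ := h l lam a w r hlam ha ha1 (hw.trans (le_max_left _ _)) hr1 hr2 hNl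
    (by rw [Real.sq_sqrt hc1.le]; exact hnd)
  refine ⟨-(Phi1 d l (lam + a - I * w) r / H355.Phi d l (lam + a - I * w) r), ?_, ?_, ?_⟩
  · rw [Sl_eq_Phi]; exact g1
  · rw [Sl_eq_Phi]
    have hκ : 0 < (lam + a - I * w).re + (l : ℝ) / 2 := by
      have : (lam + a - I * w).re = lam.re + a := by simp
      rw [this]; linarith
    rw [(hasDerivAt_Phi hκ hr).deriv]
    field_simp
  · rw [← norm_neg, neg_sub, sub_neg_eq_add, add_comm]
    exact g2

end Vale.Agent.P139.H355
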